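import Vale.Agent.P260Z.Ob.Reg.Walls
import Vale.Agent.P215Z.Frm.Items
import Vale.Agent.P215Z.Frm.Log
import Vale.Agent.P260Z.Ob.Reg.Sheet.A

noncomputable section
set_option linter.unusedSectionVars false
variable [Vale.Agent.P215Z.K.Geom]
namespace Vale.Agent.P215Z.K
open MvPolynomial Classical

set_option linter.unusedSectionVars false

namespace RSh
variable (s : Setup)

theorem cxR (N : ℕ) : Cx (KR N) := cx_Kof _

theorem cmark_eq (c : s.cv.C) (side : Bool) :
    s.L.cmark (s.col c, side) (some ⟨c, rfl⟩) = s.mkS (s.shS c side) := by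
  cases side
  · simp only [Letters.cmark, Setup.mkS, Setup.shS, Setup.L, Bool.false_eq_true, if_false]
    rw [s.hcol c, mul_inv_rev]
  · rfl

theorem par_iff (P : s.cv.S) (c : s.cv.C) :
    s.cv.par P = some c ↔ P = s.shS c (!s.cv.ins c) := by
  rw [s.cv.par_iff, Setup.shS]
  cases s.cv.ins c <;> simp

theorem cown_iff (c : s.cv.C) (side : Bool) :
    s.L.cown (s.col c, side) (some ⟨c, rfl⟩) = true ↔ side = !s.cv.ins c := by
  simp only [Letters.cown, Setup.L]
  cases side <;> cases s.cv.ins c <;> simp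

theorem touch (c : s.cv.C) (side : Bool) : s.cv.Touch (s.shS c side) c := by
  cases side
  · exact Or.inl rfl
  · exact Or.inr rfl

theorem pv_vx (c : s.cv.C) (side : Bool) : s.cv.PV (s.shS c side) (s.cv.vx c 0) :=
  (LabGrid.Curves.PE.pv s.cv (s.cv.pe_vx (touch s c side) (s.cv.per_pos c))).1

theorem pe_nxt {f r : Gp} (hf : InSq s.g.m f) (hr : Corner f r) :
    s.cv.PE (s.cv.sh f) r (nxt f r) := by
  obtain ⟨-, h1, h2⟩ := corner_nxt hr
  exact ⟨h1, Or.inl (by rw [h2]; exact ⟨hf, rfl⟩)⟩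

theorem corner_self (f : Gp) : Corner f f := ⟨Or.inl rfl, Or.inl rfl⟩

theorem chain_bdF {f : Gp} (hf : InSq s.g.m f) : (bdF f).IsChain (s.cv.PE (s.cv.sh f)) := by
  have c0 := corner_self f
  have c1 := (corner_nxt c0).1
  have c2 := (corner_nxt c1).1
  have c3 := (corner_nxt c2).1
  have e0 := pe_nxt s hf c0
  have e1 := pe_nxt s hf c1
  have e2 := pe_nxt s hf c2
  have e3 := pe_nxt s hf c3
  simp only [nxt0, nxt1, nxt2, nxt3] at e0 e1 e2 e3
  simp only [bdF, List.isChain_cons_cons, List.isChain_singleton, and_true]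
  exact ⟨e0, e1, e2, e3⟩

variable {O : Type} [CommRing O] [Algebra ℚ O]

/-- the whisker of a sheet -/
def wS (A : F1 O) (P : s.cv.S) : (MM O)ˣ :=
  (s.cv.par P).elim 1 (fun c => s.whR A c (!s.cv.ins c))

theorem lam_eq (A : F1 O) (P : s.cv.S) (r : Gp) :
    s.lam A P r = wS s A P * holL (s.UU A P) (s.wk P r) := rfl

theorem src_none (x : ∀ l : Lg, Option (s.L.C l.1) → M2 O) {P : s.cv.S}
    (h : s.cv.par P = none) : s.src x P = 0 := by
  simp only [Setup.src, h, Option.elim_none]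

theorem UU_symm (A : F1 O) (P : s.cv.S) (r r' : Gp) : s.UU A P r' r = (s.UU A P r r')⁻¹ :=
  step_symm A _ _

end RSh

open RSh

namespace Setup
variable (s : Setup) {O : Type} [CommRing O] [Algebra ℚ O] (m : Marked O Mk)
  {x : ∀ l : Lg, Option (s.L.C l.1) → M2 O}
  (hx : ∀ l c, s.L.cown l c = true → InC (m.ii (s.L.cmark l c)) (x l c))
  {A B : F1 O} (hp : s.Pair m.a A B)

/-! R2a: transported sources on a sheet -/
include hx in
theorem src_mem (P : s.cv.S) : InC (m.ii (s.mkS P)) (s.src x P) := by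
  rcases h : s.cv.par P with _ | c
  · rw [src_none s x h]
    exact InC.zero
  · have h1 := hx (s.col c, !s.cv.ins c) (some ⟨c, rfl⟩) ((cown_iff s c _).2 rfl)
    rw [cmark_eq, ← (par_iff s P c).1 h] at h1
    simp only [Setup.src, h, Option.elim_some]
    exact h1
include hx in
theorem nv_mem (A : F1 O) (c : s.cv.C) :
    InC (m.ii (s.L.cmark (s.col c, s.cv.ins c) (some ⟨c, rfl⟩))) (s.nv x A c) := by
  rw [cmark_eq]
  exact (inI_Ad ((inI_cst _ _).2 (s.src_mem m hx _)) _).at0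
include hx in
theorem Xv_mem (A : F1 O) (l : Lg) (c : Option (s.L.C l.1)) :
    InC (m.ii (s.L.cmark l c)) (s.Xv x A l c) := by
  unfold Xv
  split_ifs with h
  · exact hx l c h
  · obtain ⟨i, side⟩ := l
    rcases c with _ | ⟨c, hc⟩
    · exact InC.zero
    · change s.col c = i at hc
      subst hc
      have h1 : side = s.cv.ins c := by
        have := (cown_iff s c side).not.1 h
        revert this
        cases side <;> cases s.cv.ins c <;> simp
      subst h1
      exact s.nv_mem m hx A c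
include hx in
theorem JR_cube (A : F1 O) {f : Gp} (hf : InSq s.g.m f) (i j : Fin 4) :
    InI (m.ii (s.mkS (s.cv.sh f))) (s.JR x A (s.cube f) i j) := by
  unfold JR JJ
  simp only [Finset.sum_apply]
  refine InC.sum _ _ fun y _ => ?_
  by_cases h0 : (s.itR x A y).o = 0
  · rw [Item.J_of_o A _ h0]
    exact InC.zero
  by_cases h1 : (s.itR x A y).Star (s.cube f)
  · rw [← s.star_mark x A y h0 hf h1]
    exact Item.J_inI A _ (inI_Ad ((inI_cst _ _).2 (s.src_mem m hx _)) _).at0 _ _ _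
  · unfold Item.J
    rw [if_neg h1]
    exact InC.zero
include hp in
theorem whR_mem (c : s.cv.C) (side : Bool) : s.whR A c side ∈ UG m.a := by
  have hv : ∀ k, dm s.D.N (s.col c, side) (upTo (s.stdP c 0) k) ∈ KR s.D.N := fun k =>
    dm_V0 s.D.hN _ ((cx_V0 _ _).isFace (s.stdP_mem c (Nat.zero_le _)) (isFace_upTo _ _))
  refine mul_mem (holL_pe_mem m.nil (cxR _) hp.iA _ ?_)
    (holN_mem _ _ _ _ fun k _ => step_mem m.nil hp.iA (hv _) (hv _))
  rw [List.isChain_map]
  exact (s.prim_chain c).imp fun _ _ h => padj_dm s.D.hN (s.col c, side) h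
include hp in
theorem _root_.Vale.Agent.P215Z.K.RSh.UU_mem {P : s.cv.S} {r r' : Gp} (h : s.cv.PE P r r') :
    s.UU A P r r' ∈ UG m.a :=
  step_mem m.nil hp.iA (s.FF_mem (LabGrid.Curves.PE.pv s.cv h).1)
    (s.FF_mem (LabGrid.Curves.PE.pv s.cv h).2)
include hp in
theorem _root_.Vale.Agent.P215Z.K.RSh.wS_mem (P : s.cv.S) : wS s A P ∈ UG m.a := by
  unfold wS
  rcases s.cv.par P with _ | c
  · exact one_mem _
  · exact s.whR_mem m hp c _
include hp in
theorem lam_mem {P : s.cv.S} {r : Gp} (h : s.cv.PV P r) : s.lam A P r ∈ UG m.a :=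
  mul_mem (wS_mem s m hp P)
    (holL_mem _ _ (fun _ _ h => UU_mem s m hp h) _ ((s.hwk P r h).2.chain r h))
include hp in
theorem HR_mem (c : s.cv.C) (side : Bool) : s.HR A c side ∈ UG m.a :=
  mul_mem (mul_mem (s.whR_mem m hp c side)
    (holN_mem _ _ _ _ fun _ hk => UU_mem s m hp (s.cv.pe_vx (touch s c side) hk)))
    (inv_mem (s.whR_mem m hp c side))

variable {b : Ideal O} (hs : In2 (KR s.D.N) b (curv A - s.JR x A))
include hx hp hs
theorem flat_cube {f : Gp} (hf : InSq s.g.m f) :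
    FlatAt A (b ⊔ m.ii (s.mkS (s.cv.sh f))) (s.cube f) := by
  intro i j hi hj
  have h1 := hs _ (s.cube_mem hf) i j hi hj
  have h2 := inI_add (h1.mono le_sup_left) ((s.JR_cube m hx A hf i j).mono le_sup_right)
  simpa only [Pi.sub_apply, sub_add_cancel] using h2
theorem flatStep_PE {P : s.cv.S} {r r' : Gp} (h : s.cv.PE P r r') :
    FlatStep (KR s.D.N) A (b ⊔ m.ii (s.mkS P)) (s.FF P r) (s.FF P r') := by
  obtain ⟨f, hf, rfl, h1, h2⟩ := s.PE_face h
  exact ⟨s.adj_FF h, s.cube f, s.cube_mem hf, s.flat_cube m hx hp hs hf, s.isFace_cube hf h1,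
    s.isFace_cube hf h2⟩
theorem face_flat {f : Gp} (hf : InSq s.g.m f) :
    holL (s.UU A (s.cv.sh f)) (bdF f) ∈ UG (b ⊔ m.ii (s.mkS (s.cv.sh f))) := by
  obtain ⟨g, -, -, hg⟩ := cell_flat m.nil (cxR _) hp.gA hp.iA (s.cube_mem hf)
    (s.flat_cube m hx hp hs hf)
  have key : ∀ r, Corner f r → qq (b ⊔ m.ii (s.mkS (s.cv.sh f))) (s.UU A (s.cv.sh f) r (nxt f r)) =
      (qq _ (g (s.FF (s.cv.sh f) r)))⁻¹ * qq _ (g (s.FF (s.cv.sh f) (nxt f r))) := by
    intro r hr
    have := (qq_iff _ _).1 (hg _ _ (s.isFace_cube hf hr) (s.isFace_cube hf (corner_nxt hr).1)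
      (s.adj_FF (pe_nxt s hf hr)))
    rw [← this, map_mul, inv_mul_cancel_left]
    rfl
  have c0 := corner_self f
  have c1 := (corner_nxt c0).1
  have c2 := (corner_nxt c1).1
  have c3 := (corner_nxt c2).1
  have e0 := key _ c0
  have e1 := key _ c1
  have e2 := key _ c2
  have e3 := key _ c3
  simp only [nxt0, nxt1, nxt2, nxt3] at e0 e1 e2 e3
  rw [qq_one]
  simp only [bdF, holL, map_mul, e0, e1, e2, e3, map_one]
  group
theorem _root_.Vale.Agent.P215Z.K.RSh.flat_PV {P : s.cv.S} {r : Gp} (h : s.cv.PV P r) :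
    FlatAt A (b ⊔ m.ii (s.mkS P)) (s.FF P r) := by
  obtain ⟨f, hf, rfl, hr⟩ := h
  exact FlatAt.face (cxR _) hp.gA (s.cube_mem hf) (s.flat_cube m hx hp hs hf) (s.isFace_cube hf hr)
theorem whR_shift (c : s.cv.C) (side : Bool) : InI (b ⊔ m.ii (s.mkS (s.shS c side)))
    ((s.whR A c side : MM O) - cst (at0 (s.whR A c side : MM O)) *
      Up A (s.FF (s.shS c side) (s.cv.vx c 0))) := by
  have hv := pv_vx s c side
  have hm := s.FF_mem hv
  have h1 : holL (pe A) ((s.prim c).map (dm s.D.N (s.col c, side))) =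
      cstU (at0U (holL (pe A) ((s.prim c).map (dm s.D.N (s.col c, side))))) := by
    apply Units.ext
    refine holL_pe_const m.nil (cxR s.D.N) hp.gA hp.iA _ ?_
    rw [List.isChain_map]
    exact (s.prim_chain c).imp fun _ _ h => padj_dm s.D.hN (s.col c, side) h
  have h2 := holN_eq_Up m.nil (cxR _) hp.gA hp.iA hm (flat_PV s m hx hp hs hv)
    (fun k => dm s.D.N (s.col c, side) (upTo (s.stdP c 0) k)) 4
    (by rw [← s.FF_side, upTo_zero, dm_eq, dm_eq, affP_wv])
    (by rw [← s.FF_side, upTo_four])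
    (fun i _ => by rw [← s.FF_side, dm_eq, dm_eq, isFace_affP]; exact isFace_upTo _ _)
    (fun i _ => by rw [dm_eq, dm_eq, adj_affP]; exact adj_upTo _ _)
  rw [qq_iff] at h2
  rw [qq_iff']
  refine qq_shift (c := at0U (holL (pe A) ((s.prim c).map (dm s.D.N (s.col c, side)))))
    (at0_Up m.nil (cxR _) hp.gA hp.iA hm) ?_
  rw [map_mul, ← h1, ← h2, ← map_mul]
  rfl
theorem lam_shift {P : s.cv.S} (hP : s.cv.par P ≠ none) {r : Gp} (h : s.cv.PV P r) :
    InI (b ⊔ m.ii (s.mkS P))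
      ((s.lam A P r : MM O) - cst (at0 (s.lam A P r : MM O)) * Up A (s.FF P r)) := by
  obtain ⟨c, hc⟩ := Option.ne_none_iff_exists'.1 hP
  have e := (par_iff s P c).1 hc
  have h1 := s.whR_shift m hx hp hs c (!s.cv.ins c)
  rw [← e, qq_iff', ← s.hbase P c hc] at h1
  obtain ⟨hb, hw⟩ := s.hwk P r h
  obtain ⟨l, hl⟩ : ∃ l, s.wk P r = s.base P :: l := by
    have := hw.head r h
    rcases hh : s.wk P r with _ | ⟨y, l⟩
    · rw [hh] at this; cases this
    · rw [hh] at this
      exact ⟨l, by rw [Option.some.inj this]⟩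
  have hch := hw.chain r h
  have hla := hw.last r h
  rw [hl] at hch hla
  have h2 := shift_holL m.nil (cxR _) hp.gA hp.iA (b := b ⊔ m.ii (s.mkS P)) (s.FF P (s.base P))
    (l.map (s.FF P)) (s.FF_mem hb) (by
      rw [← List.map_cons, List.isChain_map]
      exact hch.imp fun _ _ h => s.flatStep_PE m hx hp hs h)
  have h3 : (s.FF P (s.base P) :: l.map (s.FF P)).getLast (by simp) = s.FF P r := by
    have : (s.FF P (s.base P) :: l.map (s.FF P)).getLast? = some (s.FF P r) := by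
      rw [← List.map_cons, List.getLast?_map, hla]
      rfl
    rw [List.getLast?_eq_some_getLast (by simp)] at this
    exact Option.some.inj this
  rw [h3, qq_iff2, ← List.map_cons, holL_map, ← hl] at h2
  rw [qq_iff']
  refine qq_shift (c := at0U (s.whR A c (!s.cv.ins c)) * at0U (holL (s.UU A P) (s.wk P r)))
    (at0_Up m.nil (cxR _) hp.gA hp.iA (s.FF_mem h)) ?_
  have h4 : s.lam A P r = s.whR A c (!s.cv.ins c) * holL (s.UU A P) (s.wk P r) := by
    simp only [lam, hc, Option.elim_some]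
  simp only [map_mul] at h1 h2 ⊢
  rw [h4, map_mul, h1, mul_assoc, mul_assoc]
  exact congrArg _ h2
theorem HR_shift (c : s.cv.C) (side : Bool) : InI (b ⊔ m.ii (s.mkS (s.shS c side)))
    ((s.HR A c side : MM O) - cst (at0 (s.HR A c side : MM O))) := by
  have h1 := s.whR_shift m hx hp hs c side
  have h2 := shift_holN m.nil (cxR _) hp.gA hp.iA (b := b ⊔ m.ii (s.mkS (s.shS c side)))
    (fun k => s.FF (s.shS c side) (s.cv.vx c k)) (s.cv.per c) (s.FF_mem (pv_vx s c side))
    fun k hk => s.flatStep_PE m hx hp hs (s.cv.pe_vx (touch s c side) hk)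
  rw [qq_iff'] at h1
  have e : holN (step A) (fun k => s.FF (s.shS c side) (s.cv.vx c k)) (s.cv.per c) =
      holN (s.UU A (s.shS c side)) (s.cv.vx c) (s.cv.per c) :=
    (holN_comp (step A) (s.FF (s.shS c side)) (s.cv.vx c) _).symm
  rw [qq_iff2, e, s.cv.closed] at h2
  have h3 := (qq_iff' (b := b ⊔ m.ii (s.mkS (s.shS c side))) (s.HR A c side) 1).2 ?_
  · rwa [Units.val_one, mul_one] at h3
  refine qq_shift (c := at0U (s.whR A c side) *
    at0U (holN (s.UU A (s.shS c side)) (s.cv.vx c) (s.cv.per c)) * (at0U (s.whR A c side))⁻¹)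
    (map_one at0H) ?_
  unfold HR
  simp only [map_mul, map_inv, mul_one] at h1 h2 ⊢
  rw [h1, mul_assoc _ (qq _ (Up A _)) (qq _ (holN _ _ _)), h2]
  group
theorem eta_shift {P : s.cv.S} {r : Gp} (h : s.cv.PV P r) :
    InI (m.a * b) (s.eta x A P r - Ad (Up A (s.FF P r)) (cst (at0 (s.eta x A P r)))) := by
  unfold eta
  by_cases hP : s.cv.par P = none
  · rw [src_none s x hP, cst_zero, Ad_zero, at0_zero, cst_zero, Ad_zero, sub_zero]
    exact inI_zero
  have h1 := s.lam_shift m hx hp hs hP h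
  have h2 := inI_Ad_cong (m.sq _) ((inI_cst _ _).2 (s.src_mem m hx P))
    (g' := cstU (at0U (s.lam A P r)) * Up A (s.FF P r)) h1
  rw [Ad_mul, Ad_cstU] at h2
  rw [at0_Ad, at0_cst]
  exact h2.mono (Ideal.mul_mono_left (m.le _))
/-- generation: the tree gauge holonomies lie in the group generated by faces and children -/
theorem gen_UT {P : s.cv.S} (H : Subgroup (MM O)ˣ)
    (h1 : ∀ g ∈ UG m.a, g ∈ UG (b ⊔ m.ii (s.mkS P)) → g ∈ H)
    (h2 : ∀ c, s.shS c (s.cv.ins c) = P → s.lam A P (s.cv.vx c 0) *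
      holN (s.UU A P) (s.cv.vx c) (s.cv.per c) * (s.lam A P (s.cv.vx c 0))⁻¹ ∈ H)
    {r r' : Gp} (h : s.cv.PE P r r') : s.lam A P r * s.UU A P r r' * (s.lam A P r')⁻¹ ∈ H := by
  have := UG_nilpotent (O := O) m.nil
  let U : Gp → Gp → UG m.a := fun r r' =>
    if h : s.cv.PE P r r' then ⟨s.UU A P r r', UU_mem s m hp h⟩ else 1
  have hU : ∀ r r', s.cv.PE P r r' → (UG m.a).subtype (U r r') = s.UU A P r r' := by
    intro r r' h
    simp only [U, dif_pos h]
    rfl
  have hL : ∀ l : List Gp, l.IsChain (s.cv.PE P) →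
      (UG m.a).subtype (holL U l) = holL (s.UU A P) l := by
    intro l hl
    rw [map_holL]
    exact holL_congr' hU l hl
  have hsub : ∀ g : UG m.a, (UG m.a).subtype g ∈ UG m.a := fun g => g.2
  obtain ⟨hb, hw⟩ := s.hwk P r (LabGrid.Curves.PE.pv s.cv h).1
  let φ : UG m.a →* (MM O)ˣ := (MulAut.conj (wS s A P)).toMonoidHom.comp (UG m.a).subtype
  have hφ : ∀ g : UG m.a, φ g = wS s A P * (UG m.a).subtype g * (wS s A P)⁻¹ := fun g => rfl
  have key := s.cv.gen U ?_ P (s.base P) hb (s.wk P) hw (H.comap φ) ?_ ?_ h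
  · rw [Subgroup.mem_comap, hφ, map_mul, map_mul, map_inv, hU _ _ h,
      hL _ (hw.chain _ (LabGrid.Curves.PE.pv s.cv h).1),
      hL _ (hw.chain _ (LabGrid.Curves.PE.pv s.cv h).2)] at key
    rw [lam_eq, lam_eq]
    convert key using 1
    group
  · intro r r'
    by_cases h : s.cv.PE P r r'
    · apply Subtype.ext
      have h' := LabGrid.Curves.PE.symm s.cv h
      simp only [U, dif_pos h, dif_pos h']
      exact UU_symm s A P r r'
    · have h' : ¬ s.cv.PE P r' r := fun h' => h (LabGrid.Curves.PE.symm s.cv h')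
      simp only [U, dif_neg h, dif_neg h', inv_one]
  · rintro f hf rfl
    rw [Subgroup.mem_comap, hφ]
    refine h1 _ (mul_mem (mul_mem (wS_mem s m hp _) (hsub _))
      (inv_mem (wS_mem s m hp _))) ((UG_normal _).conj_mem _ ?_ _)
    rw [map_mul, map_mul, map_inv, hL _ (chain_bdF s hf)]
    exact (UG_normal _).conj_mem _ (s.face_flat m hx hp hs hf) _
  · intro c hc hc'
    have e : s.shS c (s.cv.ins c) = P := by
      rw [Ne, par_iff] at hc'
      unfold shS at hc' ⊢
      rcases hc with hc | hc <;> revert hc' <;> cases s.cv.ins c <;> simp [hc]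
    have hv : s.cv.PV P (s.cv.vx c 0) := e ▸ pv_vx s c _
    have := h2 c e
    rw [Subgroup.mem_comap, hφ, map_mul, map_mul, map_inv, hL _ (hw.chain _ hv), map_holN,
      holN_congr' (V := s.UU A P) _ _ fun k hk => hU _ _ (s.cv.pe_vx hc hk)]
    rw [lam_eq] at this
    convert this using 1
    group
/-- the value of a curve from its outer sheet -/
theorem _root_.Vale.Agent.P215Z.K.RSh.nv_cong (c : s.cv.C) : InI (m.a * b)
    (Ad (s.lam A (s.shS c (s.cv.ins c)) (s.cv.vx c 0) * (s.whR A c (s.cv.ins c))⁻¹)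
      (cst (s.src x (s.shS c (s.cv.ins c)))) - cst (s.nv x A c)) := by
  unfold nv
  by_cases hP : s.cv.par (s.shS c (s.cv.ins c)) = none
  · rw [src_none s x hP, cst_zero, Ad_zero, at0_zero, cst_zero, sub_zero]
    exact inI_zero
  have h1 := s.lam_shift m hx hp hs hP (pv_vx s c _)
  have h2 := s.whR_shift m hx hp hs c (s.cv.ins c)
  rw [qq_iff'] at h1 h2
  have h3 : qq (b ⊔ m.ii (s.mkS (s.shS c (s.cv.ins c))))
      (s.lam A (s.shS c (s.cv.ins c)) (s.cv.vx c 0) * (s.whR A c (s.cv.ins c))⁻¹) =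
      qq _ (cstU (at0U
        (s.lam A (s.shS c (s.cv.ins c)) (s.cv.vx c 0) * (s.whR A c (s.cv.ins c))⁻¹))) := by
    rw [at0U_mul, at0U_inv]
    simp only [map_mul, map_inv] at h1 h2 ⊢
    rw [h1, h2]
    group
  have h4 := inI_Ad_cong (m.sq _) ((inI_cst _ _).2 (s.src_mem m hx _)) ((qq_iff _ _).2 h3)
  rw [Ad_cstU] at h4
  rw [at0_Ad, at0_cst]
  exact h4.mono (Ideal.mul_mono_left (m.le _))
theorem lie_UT {P : s.cv.S} {r r' : Gp} (h : s.cv.PE P r r') : InI (s.MR x A ⊔ m.a * b)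
    ⁅cst (s.src x P), ((s.lam A P r * s.UU A P r r' * (s.lam A P r')⁻¹ : (MM O)ˣ) : MM O)⁆ := by
  have hle : ∀ g, m.ii g * b ≤ s.MR x A ⊔ m.a * b := fun g =>
    (Ideal.mul_mono_left (m.le _)).trans le_sup_right
  refine s.gen_UT m hx hp hs (cen (s.MR x A ⊔ m.a * b) (cst (s.src x P))) ?_ ?_ h
  · intro g _ hg
    rw [mem_cen, ← LogAux.lie_sub_one]
    exact (inI_lie (m.sq _) ((inI_cst _ _).2 (s.src_mem m hx P)) hg).mono (hle _)
  · rintro c rfl
    have h1 := nv_cong s m hx hp hs c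
    have h2 : s.HR A c (s.cv.ins c) ∈ cen (s.MR x A ⊔ m.a * b) (cst (s.nv x A c)) := by
      have h3 := s.nv_mem m hx A c
      rw [cmark_eq] at h3
      have h4 := (inI_lie (m.sq _) ((inI_cst _ _).2 h3)
        (s.HR_shift m hx hp hs c (s.cv.ins c))).mono (hle _)
      have h5 : InI (s.MR x A ⊔ m.a * b) (cst (s.nu x A c)) :=
        (inI_cst _ _).2 fun a a' => Ideal.mem_sup_left (Ideal.subset_span ⟨c, a, a', rfl⟩)
      have h6 := inI_add h4 h5
      rw [nu, cst_lie, coe_at0U] at h6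
      rw [mem_cen]
      convert h6 using 1
      simp only [Ring.lie_def]
      noncomm_ring
    have h7 := cen_conj (cen_congr (h1.mono le_sup_right) h2)
    convert h7 using 1
    unfold HR
    group
theorem eta_step {P : s.cv.S} {r r' : Gp} (h : s.cv.PE P r r') :
    InI (s.MR x A ⊔ m.a * b) (s.eta x A P r' - Ad (s.UU A P r r') (s.eta x A P r)) := by
  have h1 := inI_Ad_sub (cen_iff.1 (mem_cen.2 (s.lie_UT m hx hp hs h))) (s.lam A P r')
  rw [← Ad_mul, inv_mul_cancel_right, Ad_mul] at h1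
  exact inI_symm h1
theorem xi_eta (y : s.cv.S × (sqs s.D.M)) (h : (s.itR x A y).o ≠ 0) {f r : Gp} (hf : InSq s.g.m f)
    (h1 : s.cv.sh f = y.1) (h2 : sqOf f = y.2.1) (hr : Corner f r) :
    InI (s.MR x A ⊔ m.a * b) ((s.itR x A y).xi A (s.FF y.1 r) - s.eta x A y.1 r) := by
  obtain ⟨P, Q, hQ⟩ := y
  dsimp only at h1 h2
  subst h1 h2
  have hnd : s.Nondeg (s.cv.sh f) (sqOf f) := by
    by_contra hn
    exact h (if_neg fun h' => hn h'.1)
  have hval := s.itR_valid x A _ h
  obtain ⟨k, c, l, c', hkl, e1, e2, e3, e4⟩ := s.face_nondeg x A hf hnd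
  have e0 := s.FF_v0 hf
  set it := s.itR x A (s.cv.sh f, ⟨sqOf f, hQ⟩) with hit
  have hσ : it.σ = s.FF (s.cv.sh f) (ctr (sqOf f)) := rfl
  have hY : it.Y = at0 (s.eta x A (s.cv.sh f) (ctr (sqOf f))) := rfl
  have hc0 := corner_v0 f
  have hc2 : Corner f (ctr (sqOf f)) := by
    rw [← nxt_nxt_v0]
    exact (corner_nxt (corner_nxt hc0).1).1
  have hstar : ∀ r, Corner f r → it.Star (s.FF (s.cv.sh f) r) := by
    intro r hr
    have key : (∀ j, j ≠ k → j ≠ l → s.FF (s.cv.sh f) r j = it.σ j) ∧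
        |s.FF (s.cv.sh f) r k - it.σ k| ≤ 1 ∧ |s.FF (s.cv.sh f) r l - it.σ l| ≤ 1 := by
      rw [hσ, e2]
      rcases corner_orbit hc0 hr with rfl | rfl | rfl | rfl
      · rw [e0]
        refine ⟨fun j h1 h2 => by rw [F1b.fc_ne _ _ h2, F1b.fc_ne _ _ h1], ?_, ?_⟩
        · rw [F1b.fc_ne _ _ hkl, F1b.fc_self]
          cases c <;> simp
        · rw [F1b.fc_self, F1b.fc_ne _ _ hkl.symm]
          cases c' <;> simp
      · rw [e1]
        refine ⟨fun j h1 h2 => by rw [F1b.fc_ne _ _ h2], ?_, ?_⟩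
        · rw [F1b.fc_ne _ _ hkl]
          simp
        · rw [F1b.fc_self]
          cases c' <;> simp
      · rw [nxt_nxt_v0, e2]
        simp
      · rw [nxt_nxt_v0, e3]
        refine ⟨fun j h1 h2 => by
          rw [F1b.fc_ne _ _ h2, F1b.fc_ne _ _ h2, F1b.fc_ne _ _ h1], ?_, ?_⟩
        · rw [F1b.fc_ne _ _ hkl, F1b.fc_ne _ _ hkl, F1b.fc_self]
          cases c <;> simp
        · rw [F1b.fc_self, F1b.fc_self, F1b.fc_ne _ _ hkl.symm]
          simp
    unfold Item.Star
    rcases e4 with ⟨hk, hl, -⟩ | ⟨hk, hl, -⟩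
    · rw [hk, hl]
      exact key
    · rw [hk, hl]
      exact ⟨fun j h1 h2 => key.1 j h2 h1, key.2.2, key.2.1⟩
  have hYm : InC (m.ii (s.mkS (s.cv.sh f))) it.Y :=
    (inI_Ad ((inI_cst _ _).2 (s.src_mem m hx _)) _).at0
  have step1 : ∀ r, Corner f r →
      InI (s.MR x A ⊔ m.a * b) (it.xi A (s.FF (s.cv.sh f) r) - s.eta x A (s.cv.sh f) r) →
      InI (s.MR x A ⊔ m.a * b)
        (it.xi A (s.FF (s.cv.sh f) (nxt f r)) - s.eta x A (s.cv.sh f) (nxt f r)) := by
    intro r hr ih
    have he := pe_nxt s hf hr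
    have a1 := (Item.xi_step m.nil (cxR _) hp.gA hp.iA it hval (m.sq _) hYm (hstar _ hr)
      (hstar _ (corner_nxt hr).1) (s.flatStep_PE m hx hp hs he)).mono
      ((Ideal.mul_mono_left (m.le _)).trans (le_sup_right (a := s.MR x A)))
    exact inI_trans a1 (inI_trans (inI_Ad_sub ih _) (inI_symm (s.eta_step m hx hp hs he)))
  have base : InI (s.MR x A ⊔ m.a * b) (it.xi A (s.FF (s.cv.sh f) (ctr (sqOf f))) -
      s.eta x A (s.cv.sh f) (ctr (sqOf f))) := by
    have a1 := s.eta_shift m hx hp hs (P := s.cv.sh f) (r := ctr (sqOf f)) ⟨f, hf, rfl, hc2⟩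
    rw [← hσ, ← hY] at a1
    rw [← hσ, Item.xi, Function.update_eq_self, step_self, mul_one, mul_one]
    exact (inI_symm a1).mono le_sup_right
  have c1 := (corner_nxt hc2).1
  have c2 := (corner_nxt c1).1
  rcases corner_orbit hc2 hr with rfl | rfl | rfl | rfl
  · exact base
  · exact step1 _ hc2 base
  · exact step1 _ c1 (step1 _ hc2 base)
  · exact step1 _ c2 (step1 _ c1 (step1 _ hc2 base))
/-- along a curve the source of the sheet is the transported letter -/
theorem eta_curve (c : s.cv.C) (side : Bool) {k : ℕ} (hk : k ≤ s.cv.per c) :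
    InI (s.MR x A ⊔ m.a * b) (s.eta x A (s.shS c side) (s.cv.vx c k) -
      Ad (s.whR A c side * holN (s.UU A (s.shS c side)) (s.cv.vx c) k)
        (cst (s.Xv x A (s.col c, side) (some ⟨c, rfl⟩)))) := by
  induction k with
  | zero =>
    simp only [holN, mul_one]
    by_cases ho : s.L.cown (s.col c, side) (some ⟨c, rfl⟩) = true
    · have e := (cown_iff s c side).1 ho
      subst e
      have hc := (par_iff s _ c).2 rfl
      have e1 : s.lam A (s.shS c (!s.cv.ins c)) (s.cv.vx c 0) = s.whR A c (!s.cv.ins c) := by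
        have := (s.hwk _ _ (pv_vx s c (!s.cv.ins c))).2.base
        rw [s.hbase _ c hc] at this
        simp only [lam, hc, Option.elim_some, this, holL, mul_one]
      have e2 : s.src x (s.shS c (!s.cv.ins c)) =
          s.Xv x A (s.col c, !s.cv.ins c) (some ⟨c, rfl⟩) := by
        simp only [src, hc, Option.elim_some, Xv, ho, if_true]
      rw [eta, e1, e2, sub_self]
      exact inI_zero
    · have e : side = s.cv.ins c := by
        have := (cown_iff s c side).not.1 ho
        revert this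
        cases side <;> cases s.cv.ins c <;> simp
      subst e
      have e2 : s.Xv x A (s.col c, s.cv.ins c) (some ⟨c, rfl⟩) = s.nv x A c := by
        simp only [Xv, ho, Bool.false_eq_true, if_false]
        rfl
      have h1 := inI_Ad_sub (nv_cong s m hx hp hs c) (s.whR A c (s.cv.ins c))
      rw [← Ad_mul, inv_mul_cancel_right] at h1
      rw [e2]
      exact h1.mono le_sup_right
  | succ k ih =>
    have h1 := s.eta_step m hx hp hs (s.cv.pe_vx (touch s c side) (show k < s.cv.per c by omega))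
    refine inI_trans h1 ?_
    simp only [holN]
    rw [← mul_assoc, Ad_mul]
    exact inI_Ad_sub (ih (by omega)) _
theorem lie_HR (c : s.cv.C) (side : Bool) : InC (s.MR x A ⊔ m.a * b)
    ⁅s.Xv x A (s.col c, side) (some ⟨c, rfl⟩), (at0U (s.HR A c side) : M2 O)⁆ := by
  have h0 := s.eta_curve m hx hp hs c side (Nat.zero_le _)
  have h1 := s.eta_curve m hx hp hs c side le_rfl
  rw [s.cv.closed] at h1
  simp only [holN, mul_one] at h0
  have h2 := inI_Ad_sub (inI_trans (inI_symm h1) h0) (s.whR A c side)⁻¹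
  rw [← Ad_mul, ← Ad_mul, mul_inv_cancel, Ad_one] at h2
  have h3 := (mem_cen.1 (cen_iff.2 h2)).at0
  rw [at0_lie, at0_cst] at h3
  exact h3

end Setup
end Vale.Agent.P215Z.K
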