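import Vale.Agent.P260Z.Ob.Reg.Closed
import Vale.Agent.P260Z.Ob.Reg.Crit.Wall
import Vale.Agent.P260Z.Ob.Reg.Crit.B

noncomputable section
set_option linter.unusedSectionVars false
variable [Vale.Agent.P215Z.K.Geom]
namespace Vale.Agent.P215Z.K
open MvPolynomial Classical

namespace Setup
variable (s : Setup) {O : Type} [CommRing O] [Algebra ℚ O] (m : Marked O Mk)
  {x : ∀ l : Lg, Option (s.L.C l.1) → M2 O}
  (hx : ∀ l c, s.L.cown l c = true → InC (m.ii (s.L.cmark l c)) (x l c))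
  {A B : F1 O} (hp : s.Pair m.a A B)

/-! R4: the wall connections are critical -/
include hx hp
theorem crit (hs : s.Sol x A B (s.MR x A)) (l : Lg) :
    (s.CS l.1).Crit s.n (s.Al A B l) (s.Xv x A l) (s.MR x A) := by
  have hle : s.MR x A ⊔ m.a * s.MR x A ≤ s.MR x A := sup_le le_rfl Ideal.mul_le_right
  refine ⟨fun τ d h3 i j hi hj => ?_, s.crit_lie m hx hp hs l⟩
  by_cases hV : τ ∈ V0 l.1 s.n
  · exact (Cr.crit_V0 s m hx hp hs.1 l h3 hV i j hi hj).mono (sup_le le_rfl hle)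
  · exact s.crit_out m hx hp hs l h3 hV i j hi hj

end Setup
end Vale.Agent.P215Z.K
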