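import Vale.Agent.P260Z.Ob.Reg.Closed
import Vale.Agent.P260Z.Ob.Cert.Geo
import Vale.Agent.P260Z.Ob.Cert.Flat

set_option linter.unusedSectionVars false

noncomputable section
set_option linter.unusedSectionVars false
variable [Vale.Agent.P215Z.K.Geom]
namespace Vale.Agent.P215Z.K
open MvPolynomial Classical

namespace Root
open Vale.Agent.P215Z.K.Cert
variable {O : Type} [CommRing O] [Algebra ℚ O]

omit [Algebra ℚ O] in
theorem good_mono {K K' : Set Pt} (h : K' ⊆ K) {A : F1 O} (hA : Good1 K A) : Good1 K' A :=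
  ⟨fun p hp => hA.indep p (h hp), fun p hp => hA.compat p (h hp)⟩

omit [Algebra ℚ O] in
theorem in_mono {K K' : Set Pt} (h : K' ⊆ K) {a : Ideal O} {A : F1 O} (hA : In1 K a A) :
    In1 K' a A := fun p hp => hA p (h hp)

theorem holN_mem {G α : Type} [Group G] (H : Subgroup G) (U : α → α → G) (x : ℕ → α) (n : ℕ)
    (h : ∀ k < n, U (x k) (x (k + 1)) ∈ H) : holN U x n ∈ H := by
  induction n with
  | zero => exact one_mem _
  | succ n ih => exact mul_mem (ih fun k hk => h k (by omega)) (h n (by omega))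

theorem midp_self (v : Pt) : midp v v = v := by
  funext j
  simp only [midp]
  omega

/-- at `t = 0` only the bottom matters -/
theorem at0_bottom {a : Ideal O} (ha : IsNilpotent a) {N : ℕ} {A B : F1 O}
    (hA : Good1 (K0 N) A) (hA' : In1 (K0 N) a A) (hB : Good1 (K0 N) B) (hB' : In1 (K0 N) a B)
    (hAB : Agree1 (KS N) A B) {p p' : Pt} (hp : p ∈ K0 N) (hp' : p' ∈ K0 N) (h : Adj p p')
    (h3 : p 3 = 1) (h3' : p' 3 = 1) : at0U (step A p p') = at0U (step B p p') := by
  have hK : Cx (K0 N) := cx_Kof _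
  have w3 : ∀ q : Pt, q 3 = 1 → wv q 3 = 0 := fun q hq => by simp [wv, hq]
  have ne : ∀ v : Pt, ¬ PAdj (K0 N) v v := by
    rintro v ⟨-, -, k, hk | hk⟩
    · have := congrFun hk k
      simp [ee_self] at this
    · have := congrFun hk k
      simp [ee_self, eq_sub_iff_add_eq] at this
  rcases at0_step ha hK hA hA' hp hp' h with ⟨e1, e2⟩ | ⟨e1, e2⟩ <;>
    rcases at0_step ha hK hB hB' hp hp' h with ⟨e3, e4⟩ | ⟨e3, e4⟩
  · rw [e2, e4]
  · exact absurd (e1 ▸ e3) (ne _)
  · exact absurd (e3 ▸ e1) (ne _)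
  · have k1 := K0_KS (hK.isFace hp (isFace_wv p)) (w3 p h3)
    have k2 := K0_KS (hK.isFace hp' (isFace_wv p')) (w3 p' h3')
    have k3 := K0_KS e1.2.1 (by simp only [midp, w3 p h3, w3 p' h3']; rfl)
    rw [e2, e4, pe, pe, step_eq_of_eq (hAB _ k1) (hAB _ k3), step_eq_of_eq (hAB _ k3) (hAB _ k2)]

omit [Algebra ℚ O] in
theorem Ad_sub_self {a i : Ideal O} {g : (MM O)ˣ} (hg : g ∈ UG a) {x : MM O} (hx : InI i x) :
    InI (a * i) (Ad g x - x) := by
  have h1 : InI a ((↑g⁻¹ : MM O) - 1) := (UG a).inv_mem hg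
  have h2 : InI a ((g : MM O) - 1) := hg
  have e : Ad g x - x = ((↑g⁻¹ : MM O) - 1) * (x * g) + x * ((g : MM O) - 1) := by
    unfold Ad; noncomm_ring
  rw [e]
  exact InC.add (Fm.MC_mul h1 (InC.mul_right hx _)) (Fm.MC_mul' hx h2)

theorem small_loop (B : F1 O) (b : Pt) {k l : Fin 4} (hkl : k ≠ l) :
    holN (step B) (fun t => pl b k l (bdG 2 t)) (4 * 2) =
      pe B (pl b k l (0, 0)) (pl b k l (0, 0) + 2 • ee k) *
        pe B (pl b k l (0, 0) + 2 • ee k) (pl b k l (0, 0) + 2 • ee k + 2 • ee l) *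
        (pe B (pl b k l (0, 0)) (pl b k l (0, 0) + 2 • ee l) *
          pe B (pl b k l (0, 0) + 2 • ee l) (pl b k l (0, 0) + 2 • ee k + 2 • ee l))⁻¹ := by
  have e1 : pl b k l (0, 0) + 2 • ee k = pl b k l (2, 0) :=
    ((pl_add_fst b k l (0, 0) 2).trans (by rw [two_smul, two_smul])).symm
  have e2 : pl b k l (0, 0) + 2 • ee l = pl b k l (0, 2) :=
    ((pl_add_snd b hkl (0, 0) 2).trans (by rw [two_smul, two_smul])).symm
  have e3 : pl b k l (2, 0) + 2 • ee l = pl b k l (2, 2) :=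
    ((pl_add_snd b hkl (2, 0) 2).trans (by rw [two_smul, two_smul])).symm
  rw [e1, e2, e3]
  simp only [pe, midp_pl]
  show 1 * step B (pl b k l (0, 0)) (pl b k l (1, 0)) * step B (pl b k l (1, 0)) (pl b k l (2, 0)) *
    step B (pl b k l (2, 0)) (pl b k l (2, 1)) * step B (pl b k l (2, 1)) (pl b k l (2, 2)) *
    step B (pl b k l (2, 2)) (pl b k l (1, 2)) * step B (pl b k l (1, 2)) (pl b k l (0, 2)) *
    step B (pl b k l (0, 2)) (pl b k l (0, 1)) * step B (pl b k l (0, 1)) (pl b k l (0, 0)) =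
    step B (pl b k l (0, 0)) (pl b k l (1, 0)) * step B (pl b k l (1, 0)) (pl b k l (2, 0)) *
    (step B (pl b k l (2, 0)) (pl b k l (2, 1)) * step B (pl b k l (2, 1)) (pl b k l (2, 2))) *
    (step B (pl b k l (0, 0)) (pl b k l (0, 1)) * step B (pl b k l (0, 1)) (pl b k l (0, 2)) *
    (step B (pl b k l (0, 2)) (pl b k l (1, 2)) * step B (pl b k l (1, 2)) (pl b k l (2, 2))))⁻¹
  rw [step_symm B (pl b k l (1, 2)) (pl b k l (2, 2)),
    step_symm B (pl b k l (0, 2)) (pl b k l (1, 2)),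
    step_symm B (pl b k l (0, 1)) (pl b k l (0, 2)),
    step_symm B (pl b k l (0, 0)) (pl b k l (0, 1))]
  group

omit [Algebra ℚ O] in
theorem qM_lb (d : Ideal O) (z : ℕ → M2 O) (j : ℕ) :
    qM d (lb z j) = lb (fun t => qM d (z t)) j := by
  induction j with
  | zero => rfl
  | succ j ih => rw [lb, lb, Ring.lie_def, Ring.lie_def, map_sub, map_mul, map_mul, ih]

variable (s : Setup)

theorem labS_root : s.cv.labS s.cv.root = 1 := by
  have hm := s.g.hm
  have hf : InSq s.g.m (0, 0) :=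
    ⟨le_rfl, Int.natCast_pos.2 hm, le_rfl, Int.natCast_pos.2 hm⟩
  rw [← s.cv.sh_bd _ hf (Or.inl rfl), s.cv.lab_sh _ hf, s.hlab]
  exact (s.D.bd (0, 0) ⟨⟨le_rfl, Int.natCast_nonneg _, le_rfl, Int.natCast_nonneg _⟩,
    Or.inl rfl⟩).1

variable (x : ∀ l : Lg, Option (s.L.C l.1) → M2 O) (B : F1 O)

theorem itB_σ (y : Kl × Fin (s.n + 1)) (j : Fin 4) : (s.itB x B y).σ j =
    (if j = kap y.1 then 2 * ((y.2 : ℕ) : ℤ) else if j = 3 then 0 else 1) +
      2 * s.D.N * org (y.1, true) j := rfl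

theorem itB_valid (y : Kl × Fin (s.n + 1)) : (s.itB x B y).Valid := by
  refine ⟨kap_ne y.1, ?_, ?_, fun j h1 h2 => ?_⟩
  · show Even ((s.itB x B y).σ (kap y.1))
    rw [itB_σ, if_pos rfl, mul_assoc, ← mul_add]
    exact even_two_mul _
  · show Even ((s.itB x B y).σ 3)
    rw [itB_σ, if_neg (kap_ne y.1).symm, if_pos rfl, zero_add, mul_assoc]
    exact even_two_mul _
  · rw [itB_σ, if_neg (show j ≠ kap y.1 from h1), if_neg (show j ≠ 3 from h2), mul_assoc, add_comm]
    exact odd_two_mul_add_one _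

theorem itB_star {y : Kl × Fin (s.n + 1)} {τ : Pt} (h : (s.itB x B y).Star τ) :
    (∀ j, j ≠ kap y.1 → j ≠ 3 → τ j = 2 * s.D.N * org (y.1, true) j + 1) ∧
      2 * s.D.N * org (y.1, true) (kap y.1) - 1 ≤ τ (kap y.1) ∧
      τ (kap y.1) ≤ 2 * s.D.N * org (y.1, true) (kap y.1) + 6 * s.D.N + 1 := by
  have h2 : |τ (kap y.1) - (s.itB x B y).σ (kap y.1)| ≤ 1 := h.2.1
  rw [itB_σ, if_pos rfl, abs_le] at h2
  have h3 : (y.2 : ℕ) < 3 * s.D.N + 1 := y.2.2
  refine ⟨fun j h1 h1' => ?_, by omega, by omega⟩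
  rw [h.1 j h1 h1', itB_σ, if_neg h1, if_neg h1', add_comm]

theorem JB_zero {p : Pt} (h : ∀ y, ¬ (s.itB x B y).Star (Function.update p 3 0)) (i j : Fin 4) :
    s.JB x B p i j = 0 := by
  unfold Setup.JB JJ
  split_ifs
  · rfl
  · rw [Finset.sum_apply, Finset.sum_apply, Finset.sum_apply]
    exact Finset.sum_eq_zero fun y _ => if_neg (h y)

theorem JB_K0 {p : Pt} (hp : p ∈ K0 s.D.N) (i j : Fin 4) : s.JB x B p i j = 0 := by
  refine JB_zero s x B (fun y hy => ?_) i j
  obtain ⟨h1, h2, h3⟩ := itB_star s x B hy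
  rw [Function.update_of_ne (kap_ne y.1)] at h2 h3
  exact not_K0 s.D.hN y.1 (fun j a b => by rw [← h1 j a b, Function.update_of_ne b]) h2 h3 hp

theorem update_sq {N : ℕ} {i : Kl} {p : Pt}
    (hp : p ∈ Set.Icc (sq0 N i (0, 0)) (sq0 N i (6 * N, 6 * N))) : Function.update p 3 0 = p := by
  have h1 := hp.1 3
  have h2 := hp.2 3
  have h3 : ∀ i, (3 : Fin 4) ≠ bu i := fun _ => by simp only [bu]; decide
  have h4 : ∀ l, org l 3 = 0 := Gx.org_three
  simp only [sq0, pl, if_neg (h3 i), if_neg (show (3 : Fin 4) ≠ 2 by decide), h4] at h1 h2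
  rw [Function.update_eq_self_iff]
  omega

theorem JB_Kc {i : Kl} {p : Pt} (hp : p ∈ Kc s.D.N i) (k l : Fin 4) : s.JB x B p k l = 0 := by
  refine JB_zero s x B (fun y hy => ?_) k l
  rw [update_sq hp.1] at hy
  exact hp.2 (eq_corner hp.1 (itB_star s x B hy).1).2

theorem corner_mem (i : Kl) : sq0 s.D.N i (1, 1) ∈
    Set.Icc (sq0 s.D.N i (0, 0)) (sq0 s.D.N i (6 * s.D.N, 6 * s.D.N)) := by
  have := s.D.hN
  exact pl_mem _ _ _ (by simp) (by simp; omega)

theorem corner_kap (N : ℕ) (i : Kl) : sq0 N i (1, 1) (kap i) = 2 * N * org (i, true) (kap i) := by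
  have h3 : kap i ≠ bu i := Gx.kap_ne0 i
  simp only [sq0, pl, if_neg h3, if_neg (kap_ne' i), add_zero]

theorem JB_corner (i : Kl) : s.JB x B (sq0 s.D.N i (1, 1)) (bu i) 2 =
    eps4 (bu i) 2 (kap i) 3 • Ad (Up B (sq0 s.D.N i (1, 1))) (cst (x (i, true) none)) := by
  have h3 : bu i ≠ 3 := by simp only [bu]; decide
  have hσ : (s.itB x B (i, 0)).σ = sq0 s.D.N i (1, 1) := by
    funext j
    rw [itB_σ]
    have key : ∀ (i : Kl) (j : Fin 4), (if j = kap i then (0 : ℤ) else if j = 3 then 0 else 1) =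
      if j = bu i then 1 else if j = 2 then 1 else 0 := by
      intro i j
      simp only [bu, Gx.kap_eq]
      fin_cases j <;> simp
    simp only [sq0, pl, ← key, add_comm]
    rfl
  unfold Setup.JB JJ
  rw [if_neg (by simp [h3]), update_sq (corner_mem s i), Finset.sum_apply, Finset.sum_apply,
    Finset.sum_apply, Finset.sum_eq_single (i, 0)]
  · have hs : (s.itB x B (i, 0)).Star (sq0 s.D.N i (1, 1)) := by
      rw [← hσ]
      exact ⟨fun _ _ _ => rfl, by simp, by simp⟩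
    have hY : (s.itB x B (i, 0)).Y = x (i, true) none := by
      show at0 (Ad 1 (cst (x (i, true) none))) = _
      simp only [Ad, inv_one, Units.val_one, one_mul, mul_one, at0_cst]
    have hh : ∀ m, (hat (sq0 s.D.N i (1, 1)) (sq0 s.D.N i (1, 1)) m : RR O) = 1 := fun m => by
      unfold hat
      rw [if_neg (by omega), if_neg (by omega)]
    unfold Item.J
    rw [if_pos hs]
    unfold Item.xi
    rw [hσ, hY, Function.update_eq_self, step_self, mul_one, mul_one, hh, hh, mul_one, one_smul]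
    show (1 * eps4 (bu i) 2 (kap i) 3) • _ = _
    rw [one_mul]
  · rintro ⟨i', t⟩ - hne
    by_contra h
    obtain ⟨h1, h2⟩ := Item.face_of_J B _ (itB_valid s x B _) h
    obtain rfl : i' = i := (eq_corner (corner_mem s i) (itB_star s x B h1).1).1
    have h4 := h2 (kap i')
    rw [itB_σ, if_pos rfl, corner_kap] at h4
    rcases h4 with h4 | h4
    · refine hne (Prod.ext rfl (Fin.ext ?_))
      show (t : ℕ) = 0
      simp only at h4
      omega
    · rw [mul_assoc] at h4
      exact Int.not_odd_iff_even.2 (even_two_mul _) h4.1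
  · exact fun h => absurd (Finset.mem_univ _) h

variable {x B} (m : Marked O Mk)
  (hx : ∀ l c, s.L.cown l c = true → InC (m.ii (s.L.cmark l c)) (x l c))
  {A : F1 O} (hp : s.Pair m.a A B) {d : Ideal O} (hs : In2 (KB s.D.N) d (curv B - s.JB x B))

include hs in
theorem flat_B {p : Pt} (h : p ∈ KB s.D.N) (h0 : ∀ i j, s.JB x B p i j = 0) : FlatAt B d p := by
  intro i j hi hj
  have := hs p h i j hi hj
  rwa [Pi.sub_apply, Pi.sub_apply, Pi.sub_apply, h0, sub_zero] at this

include hx hp hs in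
theorem lead_strong (i : Kl) : ∃ ε : ℚ, (ε = 1 ∨ ε = -1) ∧
    Lead (m.a.map (Ideal.Quotient.mk d)) ((s.ZI x A B i).map (Ideal.Quotient.mk d))
      (holN (fun p q => Phi d (step B p q)) (fun k => sq0 s.D.N i (bdG (6 * s.D.N) k))
        (4 * (6 * s.D.N))) (qM d (ε • s.zz x A B (i, true))) := by
  have hN := s.D.hN
  have hK : Cx (KB s.D.N) := cx_Kof _
  have hfl : FlatOn (Kc s.D.N i) fun p q => Phi d (step B p q) :=
    flatOn_step m.nil hK hp.gB hp.iB (fun p h => cube_KB hN i h.1)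
      fun p h => flat_B s hs (cube_KB hN i h.1) (JB_Kc s x B h)
  rw [loop_eq hfl _ _ (corner_sub i) (corner_loop i (m := 6 * s.D.N) (by omega) le_rfl)
    (corner_loop i (m := 2) le_rfl (by omega)) (by simp only [bdG_zero]), ← hom_holN (Phi d)]
  have hα := hx (i, true) none rfl
  set α := x (i, true) none with hαd
  have hz : s.zz x A B (i, true) = α := if_pos rfl
  have hZ : Fm.ent α ≤ s.ZI x A B i :=
    Fm.ent_le.2 fun a a' => Ideal.subset_span ⟨true, a, a', by rw [hz]⟩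
  have hle : Fm.ent α ≤ m.ii (s.L.cmark (i, true) none) := Fm.ent_le.2 hα
  have hσ := cube_KB hN i (corner_mem s i)
  have o1 : Odd (sq0 s.D.N i (1, 1) (bu i)) := by
    simp only [sq0, pl, if_true, mul_assoc]
    exact odd_two_mul_add_one _
  have o2 : Odd (sq0 s.D.N i (1, 1) 2) := by
    simp only [sq0, pl, if_true, if_neg (bu_ne i).symm, mul_assoc]
    exact odd_two_mul_add_one _
  have hw : wv (sq0 s.D.N i (1, 1)) = sq0 s.D.N i (0, 0) := by
    funext j
    simp only [wv, sq0, pl, Int.odd_iff, mul_assoc]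
    split_ifs <;> omega
  have hα' : InC (Fm.ent α) α := Fm.mem_ent α
  have key := plaq_alpha m.nil hK hp.gB hp.iB (M := d) (hle.trans (m.le _))
    (le_bot_iff.1 ((Ideal.mul_mono hle hle).trans (m.sq _).le)) hσ (bu_ne i) o1 o2
    (fun j a b => by
      simp only [sq0, pl, if_neg a, if_neg b, add_zero, mul_assoc]
      exact even_two_mul _) (y := eps4 (bu i) 2 (kap i) 3 • α) (hα'.zsmul _) (by
      have h1 := hs _ hσ _ _ o1 o2
      rw [Pi.sub_apply, Pi.sub_apply, Pi.sub_apply, JB_corner] at h1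
      have h2 := InC.zsmul (Ad_sub_self (Up_mem m.nil hK hp.iB hσ) ((inI_cst _ _).2 hα'))
        (eps4 (bu i) 2 (kap i) 3)
      have h3 := InC.add (h1.mono le_sup_left) (InI.mono (le_sup_right (a := d)) h2)
      have e : cst (eps4 (bu i) 2 (kap i) 3 • α) = eps4 (bu i) 2 (kap i) 3 • (cst α : MM O) :=
        map_zsmul (Fm.CM (O := O)) _ _
      rw [smul_sub, ← e, sub_add_sub_cancel] at h3
      exact h3)
  rw [hw, sq0, ← small_loop B _ (bu_ne i)] at key
  have hg : holN (step B) (fun t => sq0 s.D.N i (bdG 2 t)) (4 * 2) ∈ UG m.a := by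
    have hm := Around.mem (e := true) (K := KB s.D.N)
      (fun t => (corner_sub i t).trans fun p h => cube_KB hN i h.1)
      ⟨0, by simpa using corner_loop (N := s.D.N) i (m := 2) le_rfl (by omega)⟩
    exact holN_mem _ _ _ _ fun k hk => step_mem m.nil hp.iB (hm k (by omega)) (hm _ (by omega))
  have k2 := InI.at0 key
  rw [at0_sub, at0_sub, at0_one, at0_cst] at k2
  have he : eps4 (bu i) 2 (kap i) 3 = 1 ∨ eps4 (bu i) 2 (kap i) 3 = -1 :=
    by simp only [bu, Gx.kap_eq]; decide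
  refine ⟨(eps4 (bu i) 2 (kap i) 3 : ℤ), by rcases he with h | h <;> simp [h], ?_⟩
  rw [hz, Int.cast_smul_eq_zsmul]
  exact Phi_lead d hg ((hα'.zsmul _).mono hZ)
    (k2.mono (sup_le le_sup_right ((Ideal.mul_mono_right hZ).trans le_sup_left)))

include hp in
theorem lead_weak (i : Kl) :
    Lead (m.a.map (Ideal.Quotient.mk d)) ((s.ZI x A B i).map (Ideal.Quotient.mk d))
      (holN (fun p q => Phi d (step B p q)) (fun k => dm s.D.N (i, false) (oP s.n i k))
        (8 * s.n)) (qM d (s.zz x A B (i, false))) := by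
  have hN := s.D.hN
  have hn : 0 < s.n := by show 0 < 3 * s.D.N; omega
  have hin := s.Al_in hp (i, false)
  have hw : (s.CS i).whis (s.Al A B (i, false)) none ∈ UG m.a :=
    mul_mem (one_mem _) (Up_mem m.nil (cx_KdQ _) hin (oP_mem hn i (Nat.zero_le _)).1)
  have hh : holN (step (s.Al A B (i, false))) (oP s.n i) (8 * s.n) ∈ UG m.a :=
    holN_mem _ _ _ _ fun k hk =>
      step_mem m.nil hin (oP_mem hn i (by omega)).1 (oP_mem hn i (by omega)).1
  have hH : (s.CS i).H (s.Al A B (i, false)) none ∈ UG m.a := mul_mem (mul_mem hw hh) (inv_mem hw)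
  have hz : s.zz x A B (i, false) =
      lg (at0 ((s.CS i).H (s.Al A B (i, false)) none : MM O)) := if_neg Bool.false_ne_true
  have h1 : InC (s.ZI x A B i) (s.zz x A B (i, false)) :=
    fun a a' => Ideal.subset_span ⟨false, a, a', rfl⟩
  have h2 := InI.at0 hH
  rw [at0_sub, at0_one] at h2
  have h3 := (lg_first m.nil h2 (inC_of_lg m.nil h2 (hz ▸ h1))).neg
  rw [neg_sub, ← hz] at h3
  have h4 := (Phi_lead d hH h1 (h3.mono le_sup_left)).conj (inv_mem (Phi_mem d hw))
  have hK := Around.mem (fun t => (Face_K0 hN (i, false) t).trans (K0_KB _)) (weak_around hN i)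
  have e : holN (fun p q => Phi d (step B p q)) (fun k => dm s.D.N (i, false) (oP s.n i k))
      (8 * s.n) = Phi d (holN (step (s.Al A B (i, false))) (oP s.n i) (8 * s.n)) := by
    rw [hom_holN]
    refine holN_congr'' _ _ _ fun k hk => Phi_of_at0U d ?_
    have a1 := hK k hk.le
    have a2 := hK (k + 1) hk
    simp only [dm_eq] at a1 a2 ⊢
    rw [step_eq_of_eq (A := s.Al A B (i, false)) (p := oP s.n i k) (p' := oP s.n i (k + 1))
      (A' := pull (prm (i, false)) ((s.D.N : ℤ) • org (i, false)) B)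
      (fun j _ => if_neg (oP_mem hn i hk.le).2) (fun j _ => if_neg (oP_mem hn i hk).2),
      step_pull _ _ m.nil hp.iB a1 a2]
    exact Units.ext (at0_renM _ _).symm
  rw [e]
  have e' : (s.CS i).H (s.Al A B (i, false)) none = (s.CS i).whis (s.Al A B (i, false)) none *
      holN (step (s.Al A B (i, false))) (oP s.n i) (8 * s.n) *
      ((s.CS i).whis (s.Al A B (i, false)) none)⁻¹ := rfl
  rw [e', map_mul, map_mul, map_inv,
    show ∀ c w : (M2 (O ⧸ d))ˣ, c⁻¹ * (c * w * c⁻¹) * c⁻¹⁻¹ = w from fun c w => by group] at h4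
  exact h4

end Root

namespace Setup
variable (s : Setup) {O : Type} [CommRing O] [Algebra ℚ O] (m : Marked O Mk)
  {x : ∀ l : Lg, Option (s.L.C l.1) → M2 O}
  (hx : ∀ l c, s.L.cown l c = true → InC (m.ii (s.L.cmark l c)) (x l c))
  {A B : F1 O} (hp : s.Pair m.a A B)

/-! R6: the root sheet and the commutator -/
include hx hp
/-- R6a: the holonomy of the boundary rectangle, along primal edges -/
theorem root_hol (hs : s.Sol x A B (s.MR x A)) (d : Ideal O) (h1 : s.MR x A ≤ d)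
    (h2 : m.ii (Sum.inl 1) ≤ d) (h3 : ∀ c, s.shS c (s.cv.ins c) = s.cv.root →
      InC d ((at0U (s.HR A c (s.cv.ins c)) : M2 O) - 1)) :
    holN (s.UU A s.cv.root) (bdG s.g.m) (4 * s.g.m) ∈ UG d := by
  have hmk : s.mkS s.cv.root = Sum.inl 1 := by rw [mkS, Root.labS_root, inv_one]
  have hle : s.MR x A ⊔ m.ii (s.mkS s.cv.root) ≤ d := sup_le h1 (hmk ▸ h2)
  let φ := QuotientGroup.mk' (UG d)
  have hφ : ∀ g, φ g = 1 ↔ g ∈ UG d := fun g => QuotientGroup.eq_one_iff g
  obtain ⟨μ, hμ⟩ := s.cv.potential (fun r r' => φ (s.UU A s.cv.root r r'))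
    (fun r r' => by rw [← map_inv]; exact congrArg φ (step_symm A _ _)) s.cv.root
    (fun f hf hP => by
      rw [← map_holL, hφ]
      have := s.face_flat m hx hp hs.1 hf
      rw [hP] at this
      exact InI.mono hle this)
    (fun c hc => by
      rw [← map_holN, hφ]
      have hin : (if s.cv.ins c then s.cv.shL c else s.cv.shR c) ≠ s.cv.root := fun h => by
        have := (s.cv.par_iff _ c).2 h.symm
        rw [s.cv.par_root] at this
        exact absurd this (by simp)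
      have hout : s.shS c (s.cv.ins c) = s.cv.root := by
        unfold shS
        rcases hc with hc | hc <;> cases hi : s.cv.ins c <;> simp [hi, hc] at hin ⊢
      have a1 := s.HR_shift m hx hp hs.1 c (s.cv.ins c)
      rw [hout] at a1
      have a2 := (inI_cst d _).2 (h3 c hout)
      have e : (cst ((at0U (s.HR A c (s.cv.ins c)) : M2 O) - 1) : MM O) =
          cst (at0 (s.HR A c (s.cv.ins c) : MM O)) - 1 :=
        (map_sub (Fm.CM (O := O)) _ _).trans (congrArg _ (map_one (Fm.CM (O := O))))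
      rw [e] at a2
      have a3 := InC.add (InI.mono hle a1) a2
      rw [sub_add_sub_cancel] at a3
      have a4 := (UG_normal d).conj_mem _ (show s.HR A c (s.cv.ins c) ∈ UG d from a3)
        (s.whR A c (s.cv.ins c))⁻¹
      rw [HR, hout, show ∀ c w : (MM O)ˣ, c⁻¹ * (c * w * c⁻¹) * c⁻¹⁻¹ = w from
        fun c w => by group] at a4
      exact a4)
  have key : ∀ n ≤ 4 * s.g.m, holN (fun r r' => φ (s.UU A s.cv.root r r')) (bdG s.g.m) n =
      (μ (bdG s.g.m 0))⁻¹ * μ (bdG s.g.m n) := by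
    intro n hn
    induction n with
    | zero => exact (inv_mul_cancel _).symm
    | succ n ih =>
      rw [holN, ih (by omega), hμ _ _ (s.cv.pe_bdG (by omega)), mul_assoc, mul_inv_cancel_left]
  rw [← hφ, map_holN, key _ le_rfl, Cert.bdG_end s.g.hm, Cert.bdG_zero, inv_mul_cancel]
/-- R6b -/
theorem root_comm [Cert.HasCert] (hs : s.Sol x A B (s.MR x A)) (d : Ideal O) (h1 : s.MR x A ≤ d)
    (h : holN (s.UU A s.cv.root) (bdG s.g.m) (4 * s.g.m) ∈ UG d) :
    ∃ e : Lg → ℚ, (∀ l, e l ≠ 0) ∧ InC (m.a * prK (s.ZI x A B) ⊔ d) (lbK fun i =>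
      e (i, true) • s.zz x A B (i, true) + e (i, false) • s.zz x A B (i, false)) := by
  have hN := s.D.hN
  have hs2 : In2 (KB s.D.N) d (curv B - s.JB x B) := fun p a i j b c => (hs.2 p a i j b c).mono h1
  choose ε hε hl using Root.lead_strong s m hx hp hs2
  have hfl : Cert.FlatOn (Cert.K0 s.D.N) fun p q => Cert.Phi d (step B p q) :=
    Cert.flatOn_step m.nil (cx_Kof _) hp.gB hp.iB (Cert.K0_KB _)
      fun p a => Root.flat_B s hs2 (Cert.K0_KB _ a) (Root.JB_K0 s x B a)
  have hF : ∀ r, s.FF s.cv.root r = ref (s.D.F 1) r := fun r => by rw [FF, Root.labS_root]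
  have hadj : ∀ k < 4 * s.g.m,
      Adj (ref (s.D.F 1) (bdG s.g.m k)) (ref (s.D.F 1) (bdG s.g.m (k + 1))) := fun k hk => by
    rw [← hF, ← hF]
    exact s.adj_FF (s.cv.pe_bdG hk)
  have hγ : Cert.Around (Cert.Side s.D.N) true (fun k => ref (s.D.F 1) (bdG s.g.m k))
      (4 * s.g.m) :=
    ⟨0, by simpa using Cert.loop_bdG s.g.hm (s.hm ▸ Cert.sides_ref s.D) hadj⟩
  have hm := hγ.mem (Cert.Side_K0 hN)
  have h3 : ∀ k ≤ 4 * s.g.m, ref (s.D.F 1) (bdG s.g.m k) 3 = 1 := fun k hk =>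
    (Cert.ref_side s.D (s.hm ▸ Cert.onBd_bdG hk)).1
  have h0 : holN (fun p q => Cert.Phi d (step B p q)) (fun k => ref (s.D.F 1) (bdG s.g.m k))
      (4 * s.g.m) = 1 := by
    rw [← Cert.Phi_eq_one h, map_holN]
    refine Cert.holN_congr'' _ _ _ fun k hk => Cert.Phi_of_at0U d ?_
    rw [UU, hF, hF]
    exact (Root.at0_bottom m.nil (Root.good_mono (Cert.K0_KR _) hp.gA)
      (Root.in_mono (Cert.K0_KR _) hp.iA) (Root.good_mono (Cert.K0_KB _) hp.gB)
      (Root.in_mono (Cert.K0_KB _) hp.iB) hp.agree (hm k hk.le) (hm (k + 1) hk) (hadj k hk)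
      (h3 k hk.le) (h3 (k + 1) hk)).symm
  obtain ⟨σ, key⟩ := Cert.cert_lead hN hfl (fun p a q b => Cert.Phi_mem d
      (step_mem m.nil hp.iB (Cert.K0_KB _ a) (Cert.K0_KB _ b)))
    (fun i => (s.ZI x A B i).map (Ideal.Quotient.mk d))
    (fun l => Cert.qM d ((if l.2 then ε l.1 else 1) • s.zz x A B l))
    (fun l => if l.2 then true else Cert.wkE l.1) (by
      rintro ⟨i, b⟩
      cases b
      · exact ⟨_, _, Cert.weak_around hN i, by simpa using Root.lead_weak s m hp i⟩
      · exact ⟨_, _, Cert.strong_around hN i, hl i⟩) hγ h0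
  refine ⟨fun l => (if σ l then 1 else -1) * if l.2 then ε l.1 else 1, ?_, ?_⟩
  · rintro ⟨i, b⟩
    refine mul_ne_zero (by split_ifs <;> norm_num) ?_
    cases b
    · simp
    · rcases hε i with h | h <;> simp [h]
  · rw [← Cert.inC_qM, Ideal.map_mul, prK, lbK, Root.qM_lb,
      show ∀ (t : Finset ℕ) (f : ℕ → Ideal O), (∏ j ∈ t, f j).map (Ideal.Quotient.mk d) =
        ∏ j ∈ t, (f j).map (Ideal.Quotient.mk d) from
          fun t f => map_prod (Ideal.mapHom (Ideal.Quotient.mk d)) f t,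
      Cert.lb_congr (z' := _) fun t _ => ?_]
    · exact key
    · cases h5 : σ (cl t, true) <;> cases h6 : σ (cl t, false) <;> simp [h5, h6]

end Setup
end Vale.Agent.P215Z.K
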