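import Vale.Agent.P260Z.Ob.Reg.Closed
import Vale.Agent.P215Z.Wall.Exist

noncomputable section
set_option linter.unusedSectionVars false
variable [Vale.Agent.P215Z.K.Geom]
namespace Vale.Agent.P215Z.K
open MvPolynomial Classical

set_option linter.unusedSectionVars false

namespace RExist
variable {O : Type} [CommRing O] [Algebra ℚ O] {a b c : Ideal O} {K : Set Pt}

theorem cg_refl (g : MM O) : InI b (g - g) := by
  rw [sub_self]
  exact InC.zero

theorem cg_mul {g g' h h' : (MM O)ˣ} (h1 : InI b ((g : MM O) - g')) (h2 : InI b ((h : MM O) - h')) :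
    InI b (((g * h : (MM O)ˣ) : MM O) - (g' * h' : (MM O)ˣ)) := InC.mul_sub h1 h2

theorem cg_inv {g g' : (MM O)ˣ} (h1 : InI b ((g : MM O) - g')) :
    InI b (((g⁻¹ : (MM O)ˣ) : MM O) - (g'⁻¹ : (MM O)ˣ)) := InC.inv_sub h1

theorem cg_holN {α : Type} {U U' : α → α → (MM O)ˣ} (x : ℕ → α) (n : ℕ)
    (h : ∀ i < n, InI b ((U (x i) (x (i + 1)) : MM O) - U' (x i) (x (i + 1)))) :
    InI b (((holN U x n : (MM O)ˣ) : MM O) - (holN U' x n : (MM O)ˣ)) := by
  induction n with
  | zero => exact cg_refl _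
  | succ n ih => exact cg_mul (ih fun i hi => h i (hi.trans n.lt_succ_self)) (h n n.lt_succ_self)

theorem cg_holL {α : Type} {U U' : α → α → (MM O)ˣ} {R : α → α → Prop}
    (h : ∀ r r', R r r' → InI b ((U r r' : MM O) - U' r r')) (l : List α) (hl : l.IsChain R) :
    InI b (((holL U l : (MM O)ˣ) : MM O) - (holL U' l : (MM O)ˣ)) := by
  induction l with
  | nil => exact cg_refl _
  | cons y l ih =>
    cases l with
    | nil => exact cg_refl _
    | cons z l =>
      obtain ⟨h1, h2⟩ := List.isChain_cons_cons.1 hl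
      exact cg_mul (h _ _ h1) (ih h2)

theorem cg_Ad {g g' : (MM O)ˣ} {y : M2 O} (hy : InC a y) (h : InI b ((g : MM O) - g')) :
    InC (a * b) (at0 (Ad g (cst y)) - at0 (Ad g' (cst y))) := by
  have hy' := (inI_cst a y).2 hy
  have e : Ad g (cst y) - Ad g' (cst y) = ((↑g⁻¹ : MM O) - ↑g'⁻¹) * cst y * g +
      (↑g'⁻¹ : MM O) * (cst y * ((g : MM O) - g')) := by
    simp only [Ad, mul_sub, sub_mul, mul_assoc]
    abel
  rw [← Exist.at0_sub, e]
  refine InI.at0 (InC.add (InC.mul_right ?_ _) (InC.mul_left (hy'.mul h) _))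
  exact mul_comm b a ▸ InI.mul (cg_inv h) hy'

theorem cg_pe (ha : IsNilpotent a) (hK : Cx K) {A A' : F1 O} (hA : In1 K a A) (hA' : In1 K a A')
    (h : In1 K b (A - A')) {v v' : Pt} (hv : PAdj K v v') :
    InI b ((pe A v v' : MM O) - pe A' v v') := by
  obtain ⟨h3, h4, h5⟩ := F1b.padj_mem hK hv
  exact cg_mul (step_congr ha hA hA' h h3 h4) (step_congr ha hA hA' h h4 h5)

theorem padj_dm {N : ℕ} {l : Lg} {K' : Set Pt} {v v' : Pt} (h : PAdj K v v')
    (hK : ∀ p ∈ K, dm N l p ∈ K') : PAdj K' (dm N l v) (dm N l v') := by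
  obtain ⟨h1, h2, k, h3⟩ := h
  refine ⟨fun j => ?_, ?_, (prm l).symm k, ?_⟩
  · rw [dm_eq, ← Int.not_odd_iff_even, odd_affP, Int.not_odd_iff_even]
    exact h1 _
  · rw [dm_eq, dm_eq, ← affP_midp, ← dm_eq]
    exact hK _ h2
  · have e : ∀ j, ee ((prm l).symm k) j = ee k (prm l j) := fun j => by
      simp only [ee, Pi.single_apply, Equiv.eq_symm_apply]
    refine h3.imp (fun h => ?_) fun h => ?_
    · funext j
      simp only [h, dm, Pi.add_apply, Pi.smul_apply, e]
      ring
    · funext j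
      simp only [h, dm, Pi.sub_apply, Pi.smul_apply, e]
      ring

theorem good2_of (hK : Cx K) {e e' : F2 O} (h : Agree2 K e' e) (he : Good2 K e) : Good2 K e' := by
  refine ⟨fun p hp i i' hi hi' => ?_, fun p hp i i' j hi hi' hj => ?_,
    fun p hp k c i i' hk hi hi' h1 h2 => ?_⟩
  · rw [h p hp i i' hi hi', h p hp i' i hi' hi]
    exact he.anti p hp i i' hi hi'
  · rw [h p hp i i' hi hi']
    exact he.indep p hp i i' j hi hi' hj
  · rw [h p hp i i' hi hi', h _ (hK p hp k c hk) i i' (by rwa [face_ne h1]) (by rwa [face_ne h2])]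
    exact he.compat p hp k c i i' hk hi hi' h1 h2

theorem dd2_in {A : F1 O} {J : F2 O} (hA : In1 K a A) (h2 : In2 K b (curv A - J))
    (h3 : In3 K c (dA2 A J)) (h : a * b ≤ c) : In3 K c (dd2 (curv A - J)) :=
  fun p hp i i' k hi hi' hk h4 h5 h6 => by
    have t : ∀ {x y z : Fin 4}, Odd (p x) → Odd (p y) → Odd (p z) →
        InI c ⁅A p x, (curv A - J) p y z⁆ := fun hx hy hz =>
      (Exist.lie_inI (hA p hp _ hx) (h2 p hp _ _ hy hz)).mono h
    rw [Exist.dd2_eq A, Exist.dA2_sub, bianchi, zero_sub]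
    exact InC.sub (InC.neg (h3 p hp i i' k hi hi' hk h4 h5 h6))
      (InC.add (InC.add (t hi hi' hk) (t hi' hk hi)) (t hk hi hi'))

theorem improve {A η : F1 O} {J J' : F2 O} (hA : In1 K a A) (hη : In1 K b η) (hba : b ≤ a)
    (h2 : In2 K c (curv A - J - dd1 η)) (hJ : In2 K c (J - J')) (h : a * b ≤ c) :
    In2 K c (curv (A - η) - J') := fun p hp i i' o1 o2 => by
  have k4 : InI c _ := (Exist.lie_inI (hA p hp i o1) (hη p hp i' o2)).mono h
  have k5 : InI c _ :=
    (Exist.lie_inI (hη p hp i o1) (hA p hp i' o2)).mono ((mul_comm b a).le.trans h)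
  have k6 : InI c _ := (Exist.lie_inI ((hη p hp i o1).mono hba) (hη p hp i' o2)).mono h
  have k7 := InC.add (InC.sub (InC.sub (InC.add (h2 p hp i i' o1 o2) (hJ p hp i i' o1 o2)) k4) k5) k6
  have e : (curv (A - η) - J') p i i' = (curv A - J - dd1 η) p i i' + (J - J') p i i' -
      ⁅A p i, η p i'⁆ - ⁅η p i, A p i'⁆ + ⁅η p i, η p i'⁆ := by
    simp only [Pi.sub_apply]
    rw [curv_sub]
    abel
  rw [e]
  exact k7

/-- the curvature of an invariant connection has no component in the last direction -/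
theorem curv_three {N : ℕ} {B : F1 O} (hB : Good1 (KB N) B) (hi : Inv1 B) {p : Pt} (hp : p ∈ KB N)
    {i j : Fin 4} (oi : Odd (p i)) (oj : Odd (p j)) (h : i = 3 ∨ j = 3) : curv B p i j = 0 := by
  have h3 : B p 3 = 0 := by rw [hi p 3, if_pos rfl]
  have h4 : ∀ k, Odd (p k) → pd 3 (B p k) = 0 := fun k hk => by
    by_cases e : k = 3
    · rw [e, h3, pd_zero]
    · rw [hi p k, if_neg e]
      refine hB.indep _ (KB_update hp) k 3 (by rwa [Function.update_of_ne e]) ?_
      rw [Function.update_self]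
      exact Even.zero
  rcases h with rfl | rfl
  · simp only [curv, dd1, h3, h4 j oj, pd_zero, Ring.lie_def, zero_mul, mul_zero, sub_self, add_zero]
  · simp only [curv, dd1, h3, h4 i oi, pd_zero, Ring.lie_def, zero_mul, mul_zero, sub_self, add_zero]

theorem kap_ne : ∀ i : Kl, kap i ≠ 3 := Gx.kap_ne3

theorem padj_col {N : ℕ} (hN : 0 < N) (i : Kl) {t : ℕ} (ht : t < 3 * N) :
    PAdj (KB N) (dm N (i, true) ((2 * t : ℤ) • ee (kap i)))
      (dm N (i, true) ((2 * (t + 1 : ℕ) : ℤ) • ee (kap i))) := by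
  refine padj_dm (K := {p | dm N (i, true) p ∈ KB N}) ⟨fun j => ?_, ?_, kap i, Or.inl ?_⟩
    fun _ h => h
  · simp only [Pi.smul_apply, smul_eq_mul, mul_assoc]
    exact even_two_mul _
  · have hk := kap_ne i
    have h3 : Is3 (3 * N) (fun j => if j = kap i then 2 * (t : ℤ) + 1 else if j = 3 then 0 else 1) 3 := by
      refine ⟨Or.inl (by simp [hk.symm]), fun j hj => ?_⟩
      by_cases e : j = kap i
      · simp only [if_pos e]
        exact ⟨odd_two_mul_add_one _, by omega, by push_cast; omega⟩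
      · simp only [if_neg e, if_neg hj]
        exact ⟨odd_one, by omega, by push_cast; omega⟩
    refine (dm_V1 hN (i, true) h3 (fun h => ((is3_V0 h3).1 h).2 rfl) fun j => ?_).1
    by_cases e : j = kap i
    · left
      simp only [midp, if_pos e, Pi.smul_apply, smul_eq_mul, ee, Pi.single_apply]
      push_cast
      omega
    · by_cases e' : j = 3
      · left
        simp only [midp, if_neg e, if_pos e', Pi.smul_apply, smul_eq_mul, ee, Pi.single_apply]
        omega
      · right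
        simp only [midp, if_neg e, if_neg e', Pi.smul_apply, smul_eq_mul, ee, Pi.single_apply]
        exact ⟨odd_one, by simp⟩
  · funext j
    simp only [Pi.smul_apply, Pi.add_apply, smul_eq_mul]
    simp only [nsmul_eq_mul]
    push_cast
    ring

end RExist
open RExist

namespace Setup
variable (s : Setup) {O : Type} [CommRing O] [Algebra ℚ O] (m : Marked O Mk)
  {x : ∀ l : Lg, Option (s.L.C l.1) → M2 O}
  (hx : ∀ l c, s.L.cown l c = true → InC (m.ii (s.L.cmark l c)) (x l c))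
  {A B : F1 O} (hp : s.Pair m.a A B)

section cong
variable {A' B' : F1 O} (hp' : s.Pair m.a A' B') {b : Ideal O} (hA : In1 (KR s.D.N) b (A - A'))
  (hB : In1 (KB s.D.N) b (B - B'))
include hp hp'

include hA in
theorem ex_whR (c : s.cv.C) (side : Bool) : InI b ((s.whR A c side : MM O) - s.whR A' c side) := by
  refine cg_mul (holL_pe_congr m.nil (cx_Kof _) hp.iA hp'.iA hA _ ?_)
    (holN_congr m.nil hp.iA hp'.iA hA _ 4 fun i _ => ?_)
  · rw [List.isChain_map]
    exact (s.prim_chain c).imp fun _ _ h => padj_dm h fun _ h' => dm_V0 s.D.hN (s.col c, side) h'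
  · exact dm_V0 s.D.hN (s.col c, side) (F1b.upTo_mem (cx_V0 _ _) (s.stdP_mem c (Nat.zero_le _)) i)

include hA in
theorem ex_UU {P : s.cv.S} {r r' : Gp} (h : s.cv.PE P r r') :
    InI b ((s.UU A P r r' : MM O) - s.UU A' P r r') :=
  step_congr m.nil hp.iA hp'.iA hA (s.FF_mem (LabGrid.Curves.PE.pv s.cv h).1)
    (s.FF_mem (LabGrid.Curves.PE.pv s.cv h).2)

omit hp hp' in
theorem ex_touch (c : s.cv.C) (side : Bool) : s.cv.Touch (s.shS c side) c := by
  cases side
  · exact Or.inl rfl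
  · exact Or.inr rfl

include hA in
theorem ex_HR (c : s.cv.C) (side : Bool) : InI b ((s.HR A c side : MM O) - s.HR A' c side) :=
  cg_mul (cg_mul (s.ex_whR m hp hp' hA c side) (cg_holN _ _ fun _ hi =>
    s.ex_UU m hp hp' hA (s.cv.pe_vx (s.ex_touch c side) hi))) (cg_inv (s.ex_whR m hp hp' hA c side))

include hA in
theorem ex_lam {P : s.cv.S} {r : Gp} (h : s.cv.PV P r) :
    InI b ((s.lam A P r : MM O) - s.lam A' P r) := by
  have h1 := cg_holL (U := s.UU A P) (U' := s.UU A' P) (R := s.cv.PE P)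
    (fun _ _ h' => s.ex_UU m hp hp' hA h') _ ((s.hwk P r h).2.chain r h)
  unfold lam
  refine cg_mul ?_ h1
  cases s.cv.par P with
  | none =>
    simp only [Option.elim_none, sub_self]
    exact InC.zero
  | some c =>
    simp only [Option.elim_some]
    exact s.ex_whR m hp hp' hA c (!s.cv.ins c)

include hx

omit hp hp' in
theorem ex_src (P : s.cv.S) : InC m.a (s.src x P) := (s.src_mem m hx P).mono (m.le _)

include hA in
theorem ex_nu (c : s.cv.C) : InC (m.a * b) (s.nu x A c - s.nu x A' c) := by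
  have h1 : InC (m.a * b) (s.nv x A c - s.nv x A' c) :=
    cg_Ad (s.ex_src m hx _) (cg_mul (s.ex_lam m hp hp' hA (LabGrid.Curves.PE.pv s.cv
      (s.cv.pe_vx (s.ex_touch c _) (s.cv.per_pos c))).1) (cg_inv (s.ex_whR m hp hp' hA c _)))
  have h2 := Exist.lie_inC ((s.nv_mem m hx A' c).mono (m.le _))
    (s.ex_HR m hp hp' hA c (s.cv.ins c)).at0
  have h3 := InC.add (InC.sub (h1.mul_right (at0U (s.HR A c (s.cv.ins c)) : M2 O))
    (h1.mul_left (at0U (s.HR A c (s.cv.ins c)) : M2 O))) h2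
  have e : ∀ u u' w w' : M2 O, (u - u') * w - w * (u - u') + ⁅u', w - w'⁆ = ⁅u, w⁆ - ⁅u', w'⁆ :=
    fun u u' w w' => by
      simp only [Ring.lie_def, mul_sub, sub_mul]
      abel
  rwa [Exist.at0_sub, coe_at0U, e] at h3

include hA in
theorem ex_JR : In2 (KR s.D.N) (m.a * b) (s.JR x A - s.JR x A') := fun p hK i j hi hj => by
  have e : (s.JR x A - s.JR x A') p i j =
      ∑ y, ((s.itR x A y).J A - (s.itR x A' y).J A') p i j := by
    simp only [JR, JJ, Pi.sub_apply, Finset.sum_apply, Finset.sum_sub_distrib]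
  rw [e]
  refine InC.sum _ _ fun y _ => ?_
  by_cases h : (s.itR x A y).o = 0
  · rw [Item.J_of_o A _ h, Item.J_of_o A' (s.itR x A' y) h, sub_self]
    exact InC.zero
  · have hv : s.cv.PV y.1 (ctr y.2.1) := by
      by_contra h'
      exact h (if_neg fun h'' => h' h''.2)
    refine (Item.J_congr m.nil (cx_Kof _) hp.gA hp.iA hp'.iA _ (s.itR x A' y) (s.itR_valid x A y h)
      rfl rfl rfl rfl hA (ii := m.a) (c := m.a * b) ?_ ?_ p hK i j hi hj).mono (sup_idem _).le
    · exact InI.at0 (InC.Ad ((inI_cst _ _).2 (s.ex_src m hx _)) _)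
    · exact cg_Ad (s.ex_src m hx _) (s.ex_lam m hp hp' hA hv)

include hB in
theorem ex_JB : In2 (KB s.D.N) (m.a * b) (s.JB x B - s.JB x B') := fun p hK i j hi hj => by
  by_cases h : i = 3 ∨ j = 3
  · simp only [JB, Pi.sub_apply, if_pos h, sub_self]
    exact InC.zero
  have e : (s.JB x B - s.JB x B') p i j =
      ∑ y, ((s.itB x B y).J B - (s.itB x B' y).J B') (Function.update p 3 0) i j := by
    simp only [JB, JJ, Pi.sub_apply, if_neg h, Finset.sum_apply, Finset.sum_sub_distrib]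
  rw [e]
  refine InC.sum _ _ fun y _ => ?_
  have hk := kap_ne y.1
  have hY : InC m.a (x (y.1, true) none) := (hx (y.1, true) none rfl).mono (m.le _)
  have hv : (s.itB x B y).Valid := by
    refine ⟨hk, ?_, ?_, fun k h1 h2 => ?_⟩
    · simp only [itB, dm, prm, if_true, Equiv.Perm.coe_one, id, mul_assoc]
      exact (even_two_mul _).add (even_two_mul _)
    · simp only [itB, dm, prm, if_true, Equiv.Perm.coe_one, id, if_neg hk.symm, mul_assoc, zero_add]
      exact even_two_mul _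
    · simp only [itB] at h1 h2
      simp only [itB, dm, prm, if_true, Equiv.Perm.coe_one, id, if_neg h1, if_neg h2, mul_assoc]
      exact odd_one.add_even (even_two_mul _)
  refine (Item.J_congr m.nil (cx_Kof _) hp.gB hp.iB hp'.iB _ (s.itB x B' y) hv
    rfl rfl rfl rfl hB (ii := m.a) (c := m.a * b) ?_ ?_ _ (KB_update hK) i j
    (by rwa [Function.update_of_ne fun h' => h (Or.inl h')])
    (by rwa [Function.update_of_ne fun h' => h (Or.inr h')])).mono (sup_idem _).le
  · exact InI.at0 (InC.Ad ((inI_cst _ _).2 hY) _)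
  · exact cg_Ad hY (cg_holN _ _ fun t ht => cg_pe m.nil (cx_Kof _) hp.iB hp'.iB hB
      (padj_col s.D.hN y.1 (lt_of_lt_of_le ht (Nat.lt_succ_iff.1 y.2.2))))

end cong

theorem ex_inC_MR (x : ∀ l : Lg, Option (s.L.C l.1) → M2 O) (A : F1 O) (c : s.cv.C) :
    InC (s.MR x A) (s.nu x A c) := fun a a' => Ideal.subset_span ⟨c, a, a', rfl⟩

theorem ex_MR_le {b : Ideal O} (h : ∀ c, InC b (s.nu x A c)) : s.MR x A ≤ b :=
  Ideal.span_le.2 fun _ ⟨c, a, a', e⟩ => e ▸ h c a a'

/-! R3: existence -/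
include hx

include hp in
theorem ex_step {j : ℕ} (hs : s.Sol x A B (s.MR x A ⊔ m.a ^ (j + 1))) :
    ∃ A' B' : F1 O, s.Pair m.a A' B' ∧ s.Sol x A' B' (s.MR x A' ⊔ m.a ^ (j + 2)) := by
  set b := s.MR x A ⊔ m.a ^ (j + 1) with hb
  have hba : b ≤ m.a := sup_le (s.ex_MR_le fun c => by
    have h := (s.nv_mem m hx A c).mono (m.le _)
    rw [nu, Ring.lie_def]
    exact (h.mul_right _).sub (h.mul_left _)) (Ideal.pow_le_self j.succ_ne_zero)
  let e' : F2 O := fun p i j => if i = 3 ∨ j = 3 then 0 else (curv B - s.JB x B) p i j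
  have hag : Agree2 (KB s.D.N) e' (curv B - s.JB x B) := fun p hK i i' hi hi' => by
    by_cases h : i = 3 ∨ i' = 3
    · simp only [e', if_pos h, Pi.sub_apply, curv_three hp.gB hp.inv hK hi hi' h, JB, sub_self]
    · simp only [e', if_neg h]
  have hinv : Inv2 e' := fun p i i' => by
    by_cases h : i = 3 ∨ i' = 3
    · simp only [e', if_pos h]
    · have h1 := hp.inv p i
      have h2 := hp.inv p i'
      have h3 := s.JB_inv (x := x) B p i i'
      rw [if_neg fun h' => h (Or.inl h')] at h1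
      rw [if_neg fun h' => h (Or.inr h')] at h2
      rw [if_neg h] at h3
      simp only [e', if_neg h, Pi.sub_apply, curv, dd1]
      rw [h1, h2, h3]
  have hS : Agree2 (KS s.D.N) (curv A - s.JR x A) e' := fun p hK i i' hi hi' => by
    rw [hag p hK.1.2 i i' hi hi']
    simp only [Pi.sub_apply, curv, dd1]
    rw [hp.agree p hK i hi, hp.agree p hK i' hi', s.JR_KS A p hK i i' hi hi',
      s.JB_KS B p hK i i' hi hi']
  have h3B := dd2_in hp.iB hs.2 (c := s.MR x A ⊔ m.a * b)
    (fun p hK i i' k hi hi' hk h1 h2 h3 =>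
      (s.JB_closed m hx hp hs.2 p hK i i' k hi hi' hk h1 h2 h3).mono le_sup_right) le_sup_right
  obtain ⟨η, η', g1, g2, g3, g4, g5, g6, g7, g8⟩ := p2_pair (k := b) (b := s.MR x A ⊔ m.a * b) s.D.hN
    (hp.gA.curv.sub (s.JR_good m hp))
    (good2_of (cx_Kof _) hag (hp.gB.curv.sub (s.JB_good m hp))) hinv hS hs.1
    (fun p hK i i' hi hi' => by
      rw [hag p hK i i' hi hi']
      exact hs.2 p hK i i' hi hi')
    (dd2_in hp.iA hs.1 (s.JR_closed m hx hp hs.1) le_sup_right)
    (fun p hK i i' k hi hi' hk h1 h2 h3 => by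
      have h4 := h3B p hK i i' k hi hi' hk h1 h2 h3
      simp only [dd2] at h4 ⊢
      rwa [hag p hK i' k hi' hk, hag p hK k i hk hi, hag p hK i i' hi hi'])
  have hp' : s.Pair m.a (A - η) (B - η') :=
    ⟨hp.gA.sub g1, hp.gB.sub g2, fun p i => by
      have h1 := hp.inv p i
      have h2 := g3 p i
      by_cases h : i = 3
      · rw [if_pos h] at h1 h2 ⊢
        simp only [Pi.sub_apply, h1, h2, sub_self]
      · rw [if_neg h] at h1 h2 ⊢
        simp only [Pi.sub_apply]
        rw [h1, h2],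
      fun p hK i hi => by
        simp only [Pi.sub_apply]
        rw [hp.agree p hK i hi, g4 p hK i hi],
      fun p hK i hi => InC.sub (hp.iA p hK i hi) ((g5 p hK i hi).mono hba),
      fun p hK i hi => InC.sub (hp.iB p hK i hi) ((g6 p hK i hi).mono hba)⟩
  have hdA : In1 (KR s.D.N) b (A - (A - η)) := by rwa [sub_sub_cancel]
  have hdB : In1 (KB s.D.N) b (B - (B - η')) := by rwa [sub_sub_cancel]
  have hab : m.a * b ≤ m.a * s.MR x A ⊔ m.a ^ (j + 2) := by
    rw [hb, Ideal.mul_sup, ← pow_succ']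
  have hM : s.MR x A ≤ s.MR x (A - η) ⊔ m.a ^ (j + 2) := by
    refine Exist.nak m.nil (s.ex_MR_le fun c => ?_)
    have h2 := InC.add ((s.ex_nu m hx hp hp' hdA c).mono
      (hab.trans (sup_le le_sup_right (le_sup_right.trans le_sup_left))))
      ((s.ex_inC_MR x (A - η) c).mono (le_sup_left.trans le_sup_left))
    rwa [sub_add_cancel] at h2
  have hc : s.MR x A ⊔ m.a * b ≤ s.MR x (A - η) ⊔ m.a ^ (j + 2) :=
    sup_le hM (hab.trans (sup_le (Ideal.mul_le_right.trans hM) le_sup_right))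
  refine ⟨A - η, B - η', hp', fun p hK i i' hi hi' => InI.mono hc ?_,
    fun p hK i i' hi hi' => InI.mono hc ?_⟩
  · exact improve hp.iA g5 hba g7 (fun p hK i i' hi hi' =>
      (s.ex_JR m hx hp hp' hdA p hK i i' hi hi').mono le_sup_right) le_sup_right p hK i i' hi hi'
  · refine improve (J := s.JB x B) hp.iB g6 hba (fun p hK i i' hi hi' => ?_) (fun p hK i i' hi hi' =>
      (s.ex_JB m hx hp hp' hdB p hK i i' hi hi').mono le_sup_right) le_sup_right p hK i i' hi hi'
    have h := g8 p hK i i' hi hi'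
    rw [Pi.sub_apply, Pi.sub_apply, Pi.sub_apply, hag p hK i i' hi hi'] at h
    exact h

theorem exists_sol : ∃ A B : F1 O, s.Pair m.a A B ∧ s.Sol x A B (s.MR x A) := by
  have h : ∀ j : ℕ, ∃ A B : F1 O, s.Pair m.a A B ∧ s.Sol x A B (s.MR x A ⊔ m.a ^ (j + 1)) :=
    fun j => by
    induction j with
    | zero =>
      refine ⟨0, 0, ⟨Exist.good_zero _, Exist.good_zero _, fun p i => by simp, fun _ _ _ _ => rfl,
        fun _ _ _ _ => InC.zero, fun _ _ _ _ => InC.zero⟩, fun p hK i i' hi hi' => ?_,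
        fun p hK i i' hi hi' => ?_⟩
      · simp only [Pi.sub_apply, Exist.curv_zero, zero_sub, zero_add, pow_one]
        exact InC.neg ((s.JR_in m hx 0 p hK i i' hi hi').mono le_sup_right)
      · simp only [Pi.sub_apply, Exist.curv_zero, zero_sub, zero_add, pow_one]
        exact InC.neg ((s.JB_in m hx 0 p hK i i' hi hi').mono le_sup_right)
    | succ j ih =>
      obtain ⟨A, B, h1, h2⟩ := ih
      exact s.ex_step m hx h1 h2
  obtain ⟨k, hk⟩ := m.nil
  obtain ⟨A, B, h1, h2⟩ := h k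
  rw [pow_succ, hk, zero_mul, Ideal.zero_eq_bot, sup_bot_eq] at h2
  exact ⟨A, B, h1, h2⟩

end Setup
end Vale.Agent.P215Z.K
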