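import Vale.Agent.P260Z.Ob.Reg.Defs
import Vale.Agent.P215Z.Frm.Pull
import Vale.Agent.P215Z.Frm.First
import Vale.Agent.P215Z.Grid.Sheet
import Vale.Agent.P260Z.Ob.Reg.Geo.A

noncomputable section
set_option linter.unusedSectionVars false
variable [Vale.Agent.P215Z.K.Geom]
namespace Vale.Agent.P215Z.K
open MvPolynomial Classical

/-! R1a: the refined map and the items -/

/-- the next corner of the face `f`, counterclockwise -/
def nxt (f r : Gp) : Gp :=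
  if r = f then f + (1, 0) else if r = f + (1, 0) then f + (1, 1)
  else if r = f + (1, 1) then f + (0, 1) else f
def v0 (f : Gp) : Gp := (2 * (crn f).1, 2 * (crn f).2)

theorem corner_v0 (f : Gp) : Corner f (v0 f) := by
  simp only [Corner, v0, crn]
  omega

theorem Geo.nxt_eq (f : Gp) : nxt f f = f + (1, 0) ∧ nxt f (f + (1, 0)) = f + (1, 1) ∧
    nxt f (f + (1, 1)) = f + (0, 1) ∧ nxt f (f + (0, 1)) = f := by
  simp [nxt, Prod.ext_iff]

theorem Geo.par_cases (f : Gp) :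
    ((f.1 + f.2) % 2 = 0 ∧ v0 f = f ∧ Geo.hm f = f + (1, 0) ∧ ctr (sqOf f) = f + (1, 1) ∧
      Geo.vm f = f + (0, 1)) ∨
    ((f.1 + f.2) % 2 = 1 ∧ v0 f = f + (1, 0) ∧ Geo.vm f = f + (1, 1) ∧ ctr (sqOf f) = f + (0, 1) ∧
      Geo.hm f = f) ∨
    ((f.1 + f.2) % 2 = 0 ∧ v0 f = f + (1, 1) ∧ Geo.hm f = f + (0, 1) ∧ ctr (sqOf f) = f ∧
      Geo.vm f = f + (1, 0)) ∨
    ((f.1 + f.2) % 2 = 1 ∧ v0 f = f + (0, 1) ∧ Geo.vm f = f ∧ ctr (sqOf f) = f + (1, 0) ∧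
      Geo.hm f = f + (1, 1)) := by
  simp only [v0, crn, ctr, sqOf, Geo.hm, Geo.vm, Prod.ext_iff, Prod.fst_add, Prod.snd_add]
  rcases Int.emod_two_eq_zero_or_one f.1 with h | h <;>
    rcases Int.emod_two_eq_zero_or_one f.2 with h' | h'
  · exact .inl (by omega)
  · exact .inr (.inr (.inr (by omega)))
  · exact .inr (.inl (by omega))
  · exact .inr (.inr (.inl (by omega)))

theorem Geo.nxt_cases (f : Gp) :
    ((f.1 + f.2) % 2 = 0 ∧ nxt f (v0 f) = Geo.hm f ∧ nxt f (ctr (sqOf f)) = Geo.vm f) ∨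
      ((f.1 + f.2) % 2 = 1 ∧ nxt f (v0 f) = Geo.vm f ∧ nxt f (ctr (sqOf f)) = Geo.hm f) := by
  obtain ⟨h1, h2, h3, h4⟩ := Geo.nxt_eq f
  rcases Geo.par_cases f with ⟨p, a, b, c, d⟩ | ⟨p, a, b, c, d⟩ | ⟨p, a, b, c, d⟩ |
    ⟨p, a, b, c, d⟩ <;> rw [a, b, c, d]
  exacts [.inl ⟨p, h1, h3⟩, .inr ⟨p, h2, h4⟩, .inl ⟨p, h3, h1⟩, .inr ⟨p, h4, h2⟩]

theorem nxt_nxt_v0 (f : Gp) : nxt f (nxt f (v0 f)) = ctr (sqOf f) := by
  obtain ⟨h1, h2, h3, h4⟩ := Geo.nxt_eq f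
  rcases Geo.par_cases f with ⟨-, a, -, c, -⟩ | ⟨-, a, -, c, -⟩ | ⟨-, a, -, c, -⟩ |
    ⟨-, a, -, c, -⟩ <;> rw [a, c]
  exacts [by rw [h1, h2], by rw [h2, h3], by rw [h3, h4], by rw [h4, h1]]

theorem dm_eq (N : ℕ) (l : Lg) (p : Pt) : dm N l p = affP (prm l) ((N : ℤ) • org l) p :=
  funext fun j => by
    simp only [dm, affP, Pi.smul_apply, smul_eq_mul, mul_assoc]

theorem sign_prm (l : Lg) : Equiv.Perm.sign (prm l) = 1 := by
  obtain ⟨i, _ | _⟩ := l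
  · rw [show prm (i, false) = Equiv.swap 0 1 * Equiv.swap 2 3 from rfl]
    decide
  · rw [show prm (i, true) = 1 from rfl]
    decide

open Geo

namespace Setup
variable (s : Setup)

theorem FF_side (c : s.cv.C) (side : Bool) (k : ℕ) :
    dm s.D.N (s.col c, side) (s.stdP c k) = s.FF (s.shS c side) (s.cv.vx c k) := by
  funext j
  cases side
  · have h : s.D.F (s.cv.labS (s.cv.shL c)) =
        fun v => thC s.D.N (s.col c) (s.D.F (s.cv.labS (s.cv.shR c)) v) :=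
      funext fun v => by rw [s.hcol, s.D.equiv]
    simp only [dm, stdP, FF, shS, prm, Bool.false_eq_true, if_false, h, ref_thC, Pi.sub_apply,
      Pi.smul_apply, smul_eq_mul]
    ring
  · simp only [dm, stdP, FF, shS, prm, if_true, Pi.sub_apply, Pi.smul_apply, smul_eq_mul,
      Equiv.Perm.one_apply]
    ring

theorem geo_inSq_sqOf {f : Gp} (hf : InSq s.g.m f) : InSq s.D.M (sqOf f) := by
  rw [s.hm] at hf
  simp only [InSq, sqOf] at hf ⊢
  omega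

theorem geo_inG_crn {f : Gp} (hf : InSq s.g.m f) : InG s.D.M (crn f) := by
  rw [s.hm] at hf
  simp only [InSq, InG, crn] at hf ⊢
  omega

theorem geo_lab_sh {f : Gp} (hf : InSq s.g.m f) : s.cv.labS (s.cv.sh f) = s.D.reg (crn f) := by
  rw [s.cv.lab_sh f hf, s.hlab]

theorem geo_sh_sq (g : F3) {f : Gp} (hf : InSq s.g.m f) : Sh (s.D.F g) (sqOf f) :=
  s.D.shape g _ (s.geo_inSq_sqOf hf)

theorem cube_mem {f : Gp} (hf : InSq s.g.m f) : s.cube f ∈ KR s.D.N :=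
  ⟨_, s.D.inR _ (s.geo_inG_crn hf), fun j => by simp [cube]⟩

theorem cube_odd (f : Gp) (j : Fin 4) : Odd (s.cube f j) := ⟨_, rfl⟩

theorem FF_v0 {f : Gp} (hf : InSq s.g.m f) : s.FF (s.cv.sh f) (v0 f) = s.cube f := by
  rw [FF, v0, ref_ee, s.geo_lab_sh hf]
  rfl

theorem isFace_cube {f r : Gp} (hf : InSq s.g.m f) (hr : Corner f r) :
    IsFace (s.FF (s.cv.sh f) r) (s.cube f) := by
  rw [FF, s.geo_lab_sh hf]
  exact isFace_ref (s.geo_sh_sq _ hf) hr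

theorem FF_mem {P : s.cv.S} {r : Gp} (h : s.cv.PV P r) : s.FF P r ∈ KR s.D.N := by
  obtain ⟨f, hf, rfl, hr⟩ := h
  refine ⟨_, s.D.inR _ (s.geo_inG_crn hf), fun j => ?_⟩
  rcases s.isFace_cube hf hr j with h | h
  · rw [h]
    simp [cube]
  · exact h.2.le

theorem PE_face {P : s.cv.S} {r r' : Gp} (h : s.cv.PE P r r') :
    ∃ f, InSq s.g.m f ∧ s.cv.sh f = P ∧ Corner f r ∧ Corner f r' := by
  have k : ∀ r r' : Gp, GAdj r r' → Corner (lf r r') r ∧ Corner (lf r r') r' := by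
    have e : ∀ a : ℤ, a - 1 ≠ a + 1 := fun a => by omega
    rintro ⟨a, b⟩ r' (rfl | rfl | rfl | rfl) <;> simp [lf, Corner, Prod.ext_iff, e]
  obtain ⟨h1, h2 | h2⟩ := h
  · exact ⟨_, h2.1, h2.2, k _ _ h1⟩
  · refine ⟨_, h2.1, h2.2, (k r' r ?_).symm⟩
    rcases h1 with rfl | rfl | rfl | rfl <;> simp [GAdj]

theorem adj_FF {P : s.cv.S} {r r' : Gp} (h : s.cv.PE P r r') : Adj (s.FF P r) (s.FF P r') := by
  obtain ⟨f, hf, -, h1, h2⟩ := s.PE_face h
  exact adj_ref (s.geo_sh_sq _ hf) h1 h2 h.1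

theorem face_deg {f : Gp} (hf : InSq s.g.m f) (h : ¬ s.Nondeg (s.cv.sh f) (sqOf f)) :
    let F := s.FF (s.cv.sh f)
    F (nxt f (v0 f)) = F (nxt f (ctr (sqOf f))) ∨
      (F (nxt f (v0 f)) = F (ctr (sqOf f)) ∧ F (nxt f (ctr (sqOf f))) = F (v0 f)) ∨
      (F (nxt f (v0 f)) = F (v0 f) ∧ F (nxt f (ctr (sqOf f))) = F (ctr (sqOf f))) := by
  obtain ⟨u, w, h1, h2, -, -, h5⟩ := loc (s.geo_sh_sq (s.cv.labS (s.cv.sh f)) hf)
  have h0 : ref (s.D.F (s.cv.labS (s.cv.sh f))) (v0 f) = s.D.F (s.cv.labS (s.cv.sh f)) (crn f) +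
      s.D.F (s.cv.labS (s.cv.sh f)) (crn f) + 1 := by rw [v0, ref_ee, cell_eq]
  simp only [FF]
  rcases nxt_cases f with ⟨-, a, b⟩ | ⟨-, a, b⟩ <;> rw [a, b, h0, h1, h2] <;>
    rcases h5 with ⟨-, c, d⟩ | ⟨rfl, -⟩
  · rw [c]
    by_cases e : u = s.D.F (s.cv.labS (s.cv.sh f)) (crn f)
    · exact .inr (.inr ⟨by rw [e], by rw [e]⟩)
    · have e' := not_not.1 fun e' => h (d e e')
      exact .inr (.inl ⟨by rw [e', add_comm u], by rw [e']⟩)
  · exact .inl rfl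
  · rw [c]
    by_cases e : u = s.D.F (s.cv.labS (s.cv.sh f)) (crn f)
    · exact .inr (.inl ⟨by rw [e], by rw [e]⟩)
    · have e' := not_not.1 fun e' => h (d e e')
      exact .inr (.inr ⟨by rw [e'], by rw [e', add_comm u]⟩)
  · exact .inl rfl

theorem sqOf_mem {f : Gp} (hf : InSq s.g.m f) : sqOf f ∈ sqs s.D.M := by
  have := s.geo_inSq_sqOf hf
  simp only [sqs, Finset.mem_product, Finset.mem_Ico]
  exact ⟨⟨this.1, this.2.1⟩, this.2.2⟩

theorem geo_inSq_of {m : ℕ} {Q : Gp} (h : Q ∈ sqs m) : InSq m Q := by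
  simp only [sqs, Finset.mem_product, Finset.mem_Ico] at h
  exact ⟨h.1.1, h.1.2, h.2⟩

theorem geo_corner_ctr (f : Gp) : Corner f (ctr (sqOf f)) := by
  simp only [Corner, ctr, sqOf]
  omega

variable {O : Type} [CommRing O] [Algebra ℚ O] (x : ∀ l : Lg, Option (s.L.C l.1) → M2 O) (A : F1 O)

omit [Algebra ℚ O] in
theorem geo_itR_co (y : s.cv.S × (sqs s.D.M)) {k l : Fin 4} {a b : ℤ}
    (h : Co (s.D.F (s.cv.labS y.1)) y.2.1 k l a b) : (s.itR x A y).k = k ∧ (s.itR x A y).l = l ∧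
      (s.itR x A y).o = if s.Nondeg y.1 y.2.1 ∧ s.cv.PV y.1 (ctr y.2.1) then a * b else 0 := by
  have h1 : s.D.F (s.cv.labS y.1) (y.2.1 + (1, 0)) - s.D.F (s.cv.labS y.1) y.2.1 = a • ee k := by
    rw [h.cor _ (by simp [Corner])]
    simp
  have h2 : s.D.F (s.cv.labS y.1) (y.2.1 + (0, 1)) - s.D.F (s.cv.labS y.1) y.2.1 = b • ee l := by
    rw [h.cor _ (by simp [Corner])]
    simp
  simp only [itR, h1, h2, dirOf_eq h.hs, dirOf_eq h.ht, true_and]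
  simp [ee]

omit [Algebra ℚ O] in
theorem geo_itR_ne {y : s.cv.S × (sqs s.D.M)} (h : (s.itR x A y).o ≠ 0) :
    s.cv.PV y.1 (ctr y.2.1) ∧ ∃ a b,
      Co (s.D.F (s.cv.labS y.1)) y.2.1 (s.itR x A y).k (s.itR x A y).l a b := by
  have h1 : s.Nondeg y.1 y.2.1 ∧ s.cv.PV y.1 (ctr y.2.1) := by
    by_contra h1
    exact h (if_neg h1)
  obtain ⟨k, l, a, b, h2⟩ := exists_co (s.D.shape _ _ (geo_inSq_of y.2.2)) h1.1
  obtain ⟨e1, e2, -⟩ := s.geo_itR_co x A y h2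
  exact ⟨h1.2, a, b, by rw [e1, e2]; exact h2⟩

theorem face_nondeg {f : Gp} (hf : InSq s.g.m f) (h : s.Nondeg (s.cv.sh f) (sqOf f)) :
    let F := s.FF (s.cv.sh f)
    let it := s.itR x A (s.cv.sh f, ⟨sqOf f, s.sqOf_mem hf⟩)
    ∃ k c l c', k ≠ l ∧ F (nxt f (v0 f)) = face (s.cube f) k c ∧
      F (ctr (sqOf f)) = face (face (s.cube f) k c) l c' ∧
      F (nxt f (ctr (sqOf f))) = face (s.cube f) l c' ∧
      ((it.k = k ∧ it.l = l ∧ it.o = sB c * sB c') ∨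
        (it.k = l ∧ it.l = k ∧ it.o = -(sB c * sB c'))) := by
  obtain ⟨k, l, a, b, h2⟩ := exists_co (s.geo_sh_sq (s.cv.labS (s.cv.sh f)) hf) h
  obtain ⟨e1, e2, e3⟩ := s.geo_itR_co x A (s.cv.sh f, ⟨sqOf f, s.sqOf_mem hf⟩) h2
  rw [if_pos ⟨h, f, hf, rfl, geo_corner_ctr f⟩] at e3
  have hn := h2.ne
  obtain ⟨c, hc⟩ : ∃ c, sB c = (1 - 2 * (f.1 % 2)) * a := by
    refine ⟨decide ((1 - 2 * (f.1 % 2)) * a = 1), ?_⟩
    rcases h2.hs with rfl | rfl <;> simp only [sB, decide_eq_true_eq] <;> split_ifs <;> omega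
  obtain ⟨c', hc'⟩ : ∃ c, sB c = (1 - 2 * (f.2 % 2)) * b := by
    refine ⟨decide ((1 - 2 * (f.2 % 2)) * b = 1), ?_⟩
    rcases h2.ht with rfl | rfl <;> simp only [sB, decide_eq_true_eq] <;> split_ifs <;> omega
  have fa : ∀ (p : Pt) (m : Fin 4) (d : Bool) (j : Fin 4),
      face p m d j = p j + if j = m then sB d else 0 := fun p m d j => by
    by_cases hj : j = m
    · subst hj
      cases d <;> simp [face, sB, sub_eq_add_neg]
    · simp [face, hj]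
  have k0 := fun j => h2.rat (r := v0 f) (by simp only [v0, crn, sqOf]; omega)
    (by simp only [v0, crn, sqOf]; omega) (by simp only [v0, crn, sqOf]; omega)
    (by simp only [v0, crn, sqOf]; omega) j
  have k1 := fun j => h2.rat (r := Geo.hm f) (by simp only [Geo.hm, sqOf]; omega)
    (by simp only [Geo.hm, sqOf]; omega) (by simp only [Geo.hm, crn, sqOf]; omega)
    (by simp only [Geo.hm, crn, sqOf]; omega) j
  have k2 := fun j => h2.rat (r := vm f) (by simp only [vm, crn, sqOf]; omega)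
    (by simp only [vm, crn, sqOf]; omega) (by simp only [vm, sqOf]; omega)
    (by simp only [vm, sqOf]; omega) j
  have f1 : s.FF (s.cv.sh f) (Geo.hm f) = face (s.cube f) k c := funext fun j => by
    rw [fa, ← s.FF_v0 hf, FF, FF, k0, k1, hc]
    simp only [v0, Geo.hm, crn, sqOf]
    rcases h2.hs with rfl | rfl <;> rcases h2.ht with rfl | rfl <;> split_ifs <;> omega
  have f2 : s.FF (s.cv.sh f) (vm f) = face (s.cube f) l c' := funext fun j => by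
    rw [fa, ← s.FF_v0 hf, FF, FF, k0, k2, hc']
    simp only [v0, vm, crn, sqOf]
    rcases h2.hs with rfl | rfl <;> rcases h2.ht with rfl | rfl <;> split_ifs <;> omega
  have f3 : ∀ j, s.FF (s.cv.sh f) (ctr (sqOf f)) j =
      s.cube f j + (if j = k then sB c else 0) + if j = l then sB c' else 0 := fun j => by
    rw [← s.FF_v0 hf, FF, FF, k0, h2.ctr, hc, hc']
    simp only [v0, crn, sqOf]
    rcases h2.hs with rfl | rfl <;> rcases h2.ht with rfl | rfl <;> split_ifs <;> omega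
  intro F it
  rcases nxt_cases f with ⟨p, q, r⟩ | ⟨p, q, r⟩
  · refine ⟨k, c, l, c', hn, by rw [q]; exact f1, funext fun j => by rw [fa, fa]; exact f3 j,
      by rw [r]; exact f2, .inl ⟨e1, e2, e3.trans ?_⟩⟩
    rw [hc, hc']
    obtain ⟨t1, t2⟩ | ⟨t1, t2⟩ : (f.1 % 2 = 0 ∧ f.2 % 2 = 0) ∨ (f.1 % 2 = 1 ∧ f.2 % 2 = 1) := by omega
    all_goals
      rw [t1, t2]
      ring
  · refine ⟨l, c', k, c, hn.symm, by rw [q]; exact f2, funext fun j => by
      rw [fa, fa, add_right_comm]; exact f3 j, by rw [r]; exact f1, .inr ⟨e1, e2, e3.trans ?_⟩⟩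
    rw [hc, hc']
    obtain ⟨t1, t2⟩ | ⟨t1, t2⟩ : (f.1 % 2 = 0 ∧ f.2 % 2 = 1) ∨ (f.1 % 2 = 1 ∧ f.2 % 2 = 0) := by omega
    all_goals
      rw [t1, t2]
      ring

theorem itR_valid (y : s.cv.S × (sqs s.D.M)) (h : (s.itR x A y).o ≠ 0) : (s.itR x A y).Valid := by
  obtain ⟨-, a, b, h1⟩ := s.geo_itR_ne x A h
  have h2 : ∀ j, (s.itR x A y).σ j = _ := h1.ctr
  have hn := h1.ne
  refine ⟨hn, ?_, ?_, fun j c d => ?_⟩
  · rw [h2, if_pos rfl, if_neg hn, Int.even_iff]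
    rcases h1.hs with rfl | rfl <;> omega
  · rw [h2, if_pos rfl, if_neg hn.symm, Int.even_iff]
    rcases h1.ht with rfl | rfl <;> omega
  · rw [h2, if_neg c, if_neg d, Int.odd_iff]
    omega

theorem geo_inSq_add {Q w : Gp} (hQ : InSq s.D.M Q) (hw : Corner Q w) : InSq s.g.m (Q + w) := by
  rw [s.hm]
  simp only [InSq, Corner, Prod.fst_add, Prod.snd_add] at hQ hw ⊢
  omega

/-- faces of one square with the same label are in the same sheet -/
theorem geo_same_sheet {Q w w' : Gp} (hQ : InSq s.D.M Q) (hw : Corner Q w) (hw' : Corner Q w')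
    (h : s.D.reg w = s.D.reg w') : s.cv.sh (Q + w) = s.cv.sh (Q + w') := by
  have lb : ∀ v, Corner Q v → s.g.lab (Q + v) = s.D.reg v := fun v hv => by
    rw [s.hlab, (sq_add hv).2]
  have ad : ∀ v v', Corner Q v → Corner Q v' → GAdj v v' → s.D.reg v = s.D.reg v' →
      s.cv.sh (Q + v) = s.cv.sh (Q + v') := fun v v' a b c d =>
    s.cv.sh_adj _ _ (s.geo_inSq_add hQ a) (s.geo_inSq_add hQ b) (by
      simp only [GAdj, Prod.ext_iff, Prod.fst_add, Prod.snd_add, Prod.fst_sub, Prod.snd_sub] at c ⊢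
      omega) (by rw [lb v a, lb v' b, d])
  have c0 : Corner Q Q := by simp [Corner]
  have c1 : Corner Q (Q + (1, 0)) := by simp [Corner]
  have c2 : Corner Q (Q + (0, 1)) := by simp [Corner]
  have c3 : Corner Q (Q + (1, 1)) := by simp [Corner]
  have a01 := ad _ _ c0 c1 (.inl rfl)
  have a02 := ad _ _ c0 c2 (.inr (.inr (.inl rfl)))
  have a13 := ad _ _ c1 c3 (.inr (.inr (.inl (by simp [add_assoc]))))
  have a23 := ad _ _ c2 c3 (.inl (by simp [add_assoc]))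
  obtain ⟨⟨u, v, t1⟩, t2⟩ := s.g.two (Q + (Q + (1, 1))) (s.geo_inSq_add hQ c3) (by
    rw [← add_assoc, add_sub_cancel_right]
    exact s.geo_inSq_add hQ c0)
  have t3 : ∀ z, Corner Q z → s.D.reg z = u ∨ s.D.reg z = v := fun z hz => by
    rw [← lb z hz]
    refine t1 _ ?_
    simp only [Corner, Prod.fst_add, Prod.snd_add] at hz ⊢
    omega
  rw [show Q + (Q + (1, 1)) - (1, 1) = Q + Q by abel,
    show Q + (Q + (1, 1)) - (1, 0) = Q + (Q + (0, 1)) by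
      simp [Prod.ext_iff, ← add_assoc],
    show Q + (Q + (1, 1)) - (0, 1) = Q + (Q + (1, 0)) by
      simp [Prod.ext_iff, ← add_assoc],
    lb _ c0, lb _ c1, lb _ c2, lb _ c3] at t2
  have u0 := t3 _ c0
  have u1 := t3 _ c1
  have u2 := t3 _ c2
  have u3 := t3 _ c3
  have cs : ∀ z, Corner Q z → z = Q ∨ z = Q + (1, 0) ∨ z = Q + (0, 1) ∨ z = Q + (1, 1) :=
    fun z hz => by
      simp only [Corner, Prod.ext_iff, Prod.fst_add, Prod.snd_add] at hz ⊢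
      omega
  rcases cs w hw with rfl | rfl | rfl | rfl <;> rcases cs w' hw' with rfl | rfl | rfl | rfl <;> grind

omit [Algebra ℚ O] in
/-- the labels of the corners of the square of an item -/
theorem geo_corner_lab {y : s.cv.S × (sqs s.D.M)} (h : (s.itR x A y).o ≠ 0) :
    (∃ w, Corner y.2.1 w ∧ s.cv.sh (y.2.1 + w) = y.1 ∧ s.D.reg w = s.cv.labS y.1) ∧
    (∀ w, Corner y.2.1 w → s.D.F (s.cv.labS y.1) w ∈ Rc s.D.N → s.D.reg w = s.cv.labS y.1) ∧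
    ((∀ w, Corner y.2.1 w → s.D.F (s.cv.labS y.1) w ∈ Uc s.D.N) ∨
      ∀ w, Corner y.2.1 w → s.D.F (s.cv.labS y.1) w ∉ Bc s.D.N) := by
  obtain ⟨⟨f, hf, h1, h2⟩, a, b, h3⟩ := s.geo_itR_ne x A h
  have h4 : sqOf f = y.2.1 := by
    simp only [Corner, ctr, sqOf, Prod.ext_iff] at h2 ⊢
    omega
  obtain ⟨c1, c2⟩ := corner_crn f
  rw [h4] at c1 c2
  have c3 : s.D.reg (crn f) = s.cv.labS y.1 := by rw [← h1, s.geo_lab_sh hf]
  have hQ := geo_inSq_of y.2.2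
  refine ⟨⟨crn f, c1, by rw [c2, h1], c3⟩, ?_⟩
  rcases s.D.sq _ hQ with h5 | ⟨g, i, h5⟩
  · have h6 : ∀ w, Corner y.2.1 w → s.D.reg w = s.cv.labS y.1 := fun w hw => by
      rw [h5 w hw, ← h5 _ c1, c3]
    refine ⟨fun w hw _ => h6 w hw, .inl fun w hw => ?_⟩
    rw [← h6 w hw]
    refine (s.D.inR w ?_).1
    simp only [InSq, InG, Corner] at hQ hw ⊢
    omega
  · rcases (h5 _ c1).2 with ⟨h6, -⟩ | ⟨h6, h7⟩
    · rw [← c3, h6]
      exact ⟨fun w hw e => (h5 w hw).2.elim (fun t => t.1) fun t => absurd t.2 (e.2 i),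
        .inl fun w hw => (h5 w hw).1⟩
    · have h8 : s.D.F (s.cv.labS y.1) = fun v => thC s.D.N i (s.D.F g v) :=
        funext fun v => by rw [← c3, h6, s.D.equiv]
      rw [h8] at h3 ⊢
      have h9 := fun w hw => h3.weak s.D.hN (fun w hw => (h5 w hw).1) (w := w) hw c1 h7
      refine ⟨fun w hw e => ?_, .inr fun w hw e => e.2 i (thC_iff.2 (h9 w hw e.1))⟩
      rw [← c3, h6]
      exact (h5 w hw).2.elim (fun t => absurd (h9 w hw e.1) t.2) fun t => t.1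

omit [Algebra ℚ O] in
theorem geo_star_cube {y : s.cv.S × (sqs s.D.M)} (h : (s.itR x A y).o ≠ 0) {τ : Pt}
    (hs : (s.itR x A y).Star τ) {q : Pt} (hq : q ∈ Rc s.D.N) (h1 : ∀ j, |τ j - cell q j| ≤ 1) :
    ∃ f r, InSq s.g.m f ∧ s.cv.sh f = y.1 ∧ sqOf f = y.2.1 ∧ Corner f r ∧ s.FF y.1 r = τ ∧
      s.D.F (s.D.reg (crn f)) (crn f) = q := by
  obtain ⟨-, a, b, h3⟩ := s.geo_itR_ne x A h
  obtain ⟨⟨w', c1, c2, c3⟩, c4, -⟩ := s.geo_corner_lab x A h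
  obtain ⟨w, r, e1, e2, e3, e4⟩ := h3.star hs.1 hs.2.1 hs.2.2 h1
  have hQ := geo_inSq_of y.2.2
  have e5 := c4 w e1 (e2 ▸ hq)
  exact ⟨_, r, s.geo_inSq_add hQ e1, (s.geo_same_sheet hQ e1 c1 (e5.trans c3.symm)).trans c2,
    (sq_add e1).1, e3, e4, by rw [(sq_add e1).2, e5, e2]⟩

theorem star_face (y : s.cv.S × (sqs s.D.M)) (h : (s.itR x A y).o ≠ 0) {τ : Pt}
    (hs : (s.itR x A y).Star τ) (hτ : τ ∈ KR s.D.N) : ∃ f r, InSq s.g.m f ∧ s.cv.sh f = y.1 ∧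
      sqOf f = y.2.1 ∧ Corner f r ∧ s.FF y.1 r = τ := by
  obtain ⟨q, hq, h1⟩ := hτ
  obtain ⟨f, r, a, b, c, d, e, -⟩ := s.geo_star_cube x A h hs hq h1
  exact ⟨f, r, a, b, c, d, e⟩

theorem star_mark (y : s.cv.S × (sqs s.D.M)) (h : (s.itR x A y).o ≠ 0) {f : Gp} (hf : InSq s.g.m f)
    (hs : (s.itR x A y).Star (s.cube f)) : s.mkS y.1 = s.mkS (s.cv.sh f) := by
  obtain ⟨f', r, a, b, -, -, -, e⟩ := s.geo_star_cube x A h hs (s.D.inR _ (s.geo_inG_crn hf))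
    fun j => by simp [cube]
  rw [mkS, mkS, ← b, s.geo_lab_sh a, s.geo_lab_sh hf, s.D.sep _ _ (s.geo_inG_crn a) (s.geo_inG_crn hf) e]

theorem star_KS (y : s.cv.S × (sqs s.D.M)) (h : (s.itR x A y).o ≠ 0) {τ : Pt}
    (hs : (s.itR x A y).Star τ) : τ ∉ KS s.D.N := by
  rintro ⟨⟨-, q, hq, h1⟩, q', hq', h2⟩
  obtain ⟨-, a, b, h3⟩ := s.geo_itR_ne x A h
  obtain ⟨w, -, e1, e2, -⟩ := h3.star hs.1 hs.2.1 hs.2.2 h1
  obtain ⟨w', -, e3, e4, -⟩ := h3.star hs.1 hs.2.1 hs.2.2 h2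
  rcases (s.geo_corner_lab x A h).2.2 with c | c
  · exact hq' (e4 ▸ c w' e3)
  · exact c w e1 (e2 ▸ hq)

theorem geo_mem_Rf {N : ℕ} {q : Pt} : q ∈ Rf N ↔ q ∈ Rc N := by
  refine Finset.mem_filter.trans (and_iff_right_of_imp fun h => ?_)
  simpa [InBox] using h.1.1

theorem sum_star {M : Type} [AddCommMonoid M] (G : s.cv.S → Gp → Pt → M) :
    ∑ q ∈ Rf s.D.N, ∑ y : s.cv.S × (sqs s.D.M),
      (if (s.itR x A y).o ≠ 0 ∧ (s.itR x A y).Star (cell q) then G y.1 y.2.1 (cell q) else 0) =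
    ∑ f ∈ sqs s.g.m, if s.Nondeg (s.cv.sh f) (sqOf f) then G (s.cv.sh f) (sqOf f) (s.cube f)
      else 0 := by
  rw [← Finset.sum_product', ← Finset.sum_filter, ← Finset.sum_filter]
  symm
  refine Finset.sum_bij (fun f hf => (s.D.F (s.D.reg (crn f)) (crn f), s.cv.sh f,
    ⟨sqOf f, s.sqOf_mem (geo_inSq_of (Finset.mem_filter.1 hf).1)⟩)) (fun f hf => ?_)
    (fun f hf f' hf' e => ?_) (fun z hz => ?_) fun f hf => rfl
  · obtain ⟨h1, h2⟩ := Finset.mem_filter.1 hf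
    have h3 := geo_inSq_of h1
    obtain ⟨k, c, l, c', a1, -, a2, -, a3⟩ := s.face_nondeg x A h3 h2
    have o1 : sB c * sB c' ≠ 0 := by cases c <;> cases c' <;> simp [sB]
    have o2 : ∀ j, j ≠ k → j ≠ l → s.cube f j = face (face (s.cube f) k c) l c' j := fun j p q => by
      rw [face, face, Function.update_of_ne q, Function.update_of_ne p]
    have o3 : |s.cube f k - face (face (s.cube f) k c) l c' k| ≤ 1 := by
      rw [face, Function.update_of_ne a1, face, Function.update_self]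
      cases c <;> simp
    have o4 : |s.cube f l - face (face (s.cube f) k c) l c' l| ≤ 1 := by
      rw [face, Function.update_self, face, Function.update_of_ne a1.symm]
      cases c' <;> simp
    rw [← a2] at o2 o3 o4
    refine Finset.mem_filter.2 ⟨Finset.mem_product.2 ⟨geo_mem_Rf.2 (s.D.inR _ (s.geo_inG_crn h3)),
      Finset.mem_univ _⟩, ?_⟩
    rcases a3 with ⟨b1, b2, b3⟩ | ⟨b1, b2, b3⟩
    · refine ⟨b3 ▸ o1, ?_⟩
      rw [Item.Star, b1, b2]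
      exact ⟨o2, o3, o4⟩
    · refine ⟨b3 ▸ neg_ne_zero.2 o1, ?_⟩
      rw [Item.Star, b1, b2]
      exact ⟨fun j p q => o2 j q p, o4, o3⟩
  · obtain ⟨h1, h2⟩ := Finset.mem_filter.1 hf
    have h3 := geo_inSq_of h1
    have h4 := geo_inSq_of (Finset.mem_filter.1 hf').1
    simp only [Prod.mk.injEq, Subtype.mk.injEq] at e
    obtain ⟨k, l, a, b, h5⟩ := exists_co (s.geo_sh_sq (s.cv.labS (s.cv.sh f)) h3) h2
    have h6 := h5.inj (corner_crn f).1 (e.2.2 ▸ (corner_crn f').1) (by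
      have := e.1
      rwa [← s.geo_lab_sh h3, ← s.geo_lab_sh h4, ← e.2.1] at this)
    rw [← (corner_crn f).2, ← (corner_crn f').2, h6, e.2.2]
  · obtain ⟨h1, h2, h3⟩ := Finset.mem_filter.1 hz
    obtain ⟨f, r, a, b, c, -, -, e⟩ := s.geo_star_cube x A h2 h3
      (geo_mem_Rf.1 (Finset.mem_product.1 h1).1) fun j => by simp
    have h4 : s.Nondeg z.2.1 z.2.2.1 := by
      by_contra h4
      exact h2 (if_neg fun h5 => h4 h5.1)
    refine ⟨f, Finset.mem_filter.2 ⟨?_, by rw [b, c]; exact h4⟩,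
      Prod.ext e (Prod.ext b (Subtype.ext c))⟩
    simp only [sqs, Finset.mem_product, Finset.mem_Ico]
    exact ⟨⟨a.1, a.2.1⟩, a.2.2⟩

end Setup
end Vale.Agent.P215Z.K
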